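import Mathlib

/-!
# P219: left-invariant metrics on triangular groups, definitions
-/

namespace Vale.Agent.P219.Solv

open Matrix
open scoped Matrix

/-- `Y` in coordinates. -/
abbrev Co (m : ℕ) := Fin m → ℝ

variable {n : ℕ}

/-- The coordinates of a differential. -/
noncomputable def coord (D : Co n →L[ℝ] ℝ) : Co n := fun i => D (Pi.single i 1)

/-- The Riemannian volume density of the metric with matrix `g`. -/
noncomputable def mdens (g : Co n → Matrix (Fin n) (Fin n) ℝ) (x : Co n) : ℝ :=
  Real.sqrt (g x).det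

/-- The Riemannian norm of a differential for the metric with matrix `g`. -/
noncomputable def mnorm (g : Co n → Matrix (Fin n) (Fin n) ℝ) (x : Co n)
    (D : Co n →L[ℝ] ℝ) : ℝ :=
  Real.sqrt (coord D ⬝ᵥ ((g x)⁻¹ *ᵥ coord D))

/-- Coordinates of the second kind of a simply connected solvable Lie group: `mul` is a `C¹`
group law on `ℝⁿ`; each set `Hᵢ = {a | a_j = 0 for j < i}` acts on the left without changing the
coordinates before `i` and independently of them, and coordinate `i` is additive on it. -/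
structure Triangular (n : ℕ) (mul : Co n → Co n → Co n) : Prop where
  smooth : ∀ a, ContDiff ℝ 1 (mul a)
  assoc : ∀ a b x, mul (mul a b) x = mul a (mul b x)
  one_mul : ∀ x, mul 0 x = x
  mul_one : ∀ x, mul x 0 = x
  inv : ∀ a, ∃ b, mul a b = 0 ∧ mul b a = 0
  tri : ∀ a x (i : Fin n), (∀ j < i, a j = 0) → mul a x i = a i + x i ∧
    (∀ j < i, mul a x j = x j) ∧
    ∀ j, i ≤ j → mul a x j = mul a (fun k => if k < i then 0 else x k) j

/-- Left invariance of the metric with matrix `g`. -/
def LeftInvariant (mul : Co n → Co n → Co n) (g : Co n → Matrix (Fin n) (Fin n) ℝ) : Prop :=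
  ∀ a x u v : Co n, fderiv ℝ (mul a) x u ⬝ᵥ (g (mul a x) *ᵥ fderiv ℝ (mul a) x v)
    = u ⬝ᵥ (g x *ᵥ v)

/-- A Riemannian metric with `C¹` coefficients. -/
def IsMetric (g : Co n → Matrix (Fin n) (Fin n) ℝ) : Prop :=
  (∀ x, (g x).PosDef) ∧ ∀ i j, ContDiff ℝ 1 fun x => g x i j

end Vale.Agent.P219.Solv
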