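import Vale.Agent.P219.Solv.Induct

/-!
# P219: the hypotheses hold for hyperbolic space

`ℝⁿ` with the group law `(t, y) (t', y') = (t + t', y + eᵗ y')` and the metric `dt² + e^{-2t} |dy|²`.
-/

namespace Vale.Agent.P219.Solv

open Matrix

variable {m : ℕ}

/-- The group law of hyperbolic space. -/
noncomputable def hypMul (a x : Co (m + 1)) : Co (m + 1) :=
  fun j => if j = 0 then a 0 + x 0 else a j + Real.exp (a 0) * x j

/-- The hyperbolic metric. -/
noncomputable def hypMetric (x : Co (m + 1)) : Matrix (Fin (m + 1)) (Fin (m + 1)) ℝ :=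
  Matrix.diagonal fun j => if j = 0 then 1 else Real.exp (-2 * x 0)

lemma hypMul_zero (a x : Co (m + 1)) : hypMul a x 0 = a 0 + x 0 := by simp [hypMul]

lemma hyp_triangular : Triangular (m + 1) (hypMul (m := m)) where
  smooth a := contDiff_pi.2 fun j => by
    simp only [hypMul]
    split_ifs
    · exact contDiff_const.add (contDiff_apply ℝ ℝ 0)
    · exact contDiff_const.add (contDiff_const.mul (contDiff_apply ℝ ℝ j))
  assoc a b x := by
    funext j
    by_cases h : j = 0
    · subst h; simp [hypMul]; ring
    · simp [hypMul, h, Real.exp_add]; ring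
  one_mul x := by funext j; by_cases h : j = 0 <;> simp [hypMul, h]
  mul_one x := by funext j; by_cases h : j = 0 <;> simp [hypMul, h]
  inv a := by
    refine ⟨fun j => if j = 0 then -(a 0) else -(Real.exp (-(a 0)) * a j), ?_, ?_⟩ <;>
      funext j <;> by_cases h : j = 0 <;> simp [hypMul, h, ← mul_assoc, ← Real.exp_add]
  tri a x i ha := by
    rcases eq_or_ne i 0 with rfl | hi
    · exact ⟨hypMul_zero a x, fun j hj => absurd hj (by simp), fun j _ => by simp⟩
    have h0 : a 0 = 0 := ha 0 (Fin.pos_iff_ne_zero.2 hi)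
    refine ⟨by simp [hypMul, hi, h0], fun j hj => ?_, fun j hj => ?_⟩
    · by_cases h : j = 0
      · subst h; simp [hypMul, h0]
      · simp [hypMul, h, h0, ha j hj]
    · have h : j ≠ 0 := (lt_of_lt_of_le (Fin.pos_iff_ne_zero.2 hi) hj).ne'
      simp [hypMul, h, h0, not_lt.2 hj]

lemma hyp_isMetric : IsMetric (hypMetric (m := m)) := by
  refine ⟨fun x => Matrix.PosDef.diagonal fun j => ?_, fun i j => ?_⟩
  · split_ifs
    · exact one_pos
    · exact Real.exp_pos _
  · simp only [hypMetric, Matrix.diagonal_apply]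
    split_ifs
    · exact contDiff_const
    · exact (contDiff_const.mul (contDiff_apply ℝ ℝ 0)).exp
    · exact contDiff_const

lemma hyp_invariant : LeftInvariant (hypMul (m := m)) hypMetric := by
  intro a x u v
  have hD : ∀ u j, fderiv ℝ (hypMul a) x u j = (if j = 0 then 1 else Real.exp (a 0)) * u j := by
    intro u j
    have h : HasFDerivAt (hypMul a) (ContinuousLinearMap.pi fun j : Fin (m + 1) =>
        (if j = 0 then (1 : ℝ) else Real.exp (a 0))
          • ContinuousLinearMap.proj (R := ℝ) (φ := fun _ : Fin (m + 1) => ℝ) j) x := by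
      refine hasFDerivAt_pi.2 fun j => ?_
      by_cases h : j = 0
      · subst h
        simpa [hypMul] using (hasFDerivAt_apply (0 : Fin (m + 1)) x).const_add (a 0)
      · simpa [hypMul, h] using ((hasFDerivAt_apply j x).const_mul (Real.exp (a 0))).const_add (a j)
    rw [h.fderiv]; rfl
  simp only [dotProduct, hypMetric, Matrix.mulVec_diagonal, hD, hypMul_zero]
  refine Finset.sum_congr rfl fun j _ => ?_
  split_ifs
  · ring
  · rw [show -2 * (a 0 + x 0) = -(a 0) + -(a 0) + -2 * x 0 by ring, Real.exp_add, Real.exp_add,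
      Real.exp_neg]
    have := Real.exp_ne_zero (a 0)
    field_simp

end Vale.Agent.P219.Solv
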