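import Vale.Agent.P219.Solv.Metric

/-!
# P219: triangular group laws and left-invariant metrics
-/

namespace Vale.Agent.P219.Solv

open MeasureTheory Set Filter Topology Matrix
open scoped Matrix

variable {m n : ℕ}

/-- The slice `x₀ = 0`, as a group. -/
def sliceMul (mul : Co (m + 1) → Co (m + 1) → Co (m + 1)) (y y' : Co m) : Co m :=
  Fin.tail (mul (Fin.cons 0 y) (Fin.cons 0 y'))

/-- Adding a first coordinate, as a continuous linear equivalence. -/
noncomputable def consE (m : ℕ) : (ℝ × Co m) ≃L[ℝ] Co (m + 1) :=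
  LinearEquiv.toContinuousLinearEquiv
    { toFun := fun p => Fin.cons p.1 p.2
      invFun := fun x => (x 0, Fin.tail x)
      map_add' := fun p q => by
        funext i; refine Fin.cases ?_ (fun j => ?_) i <;> simp
      map_smul' := fun r p => by
        funext i; refine Fin.cases ?_ (fun j => ?_) i <;> simp
      left_inv := fun p => by simp
      right_inv := fun x => by simp }

@[simp] lemma consE_apply (p : ℝ × Co m) : consE m p = Fin.cons p.1 p.2 := rfl

@[simp] lemma consE_symm_apply (x : Co (m + 1)) : (consE m).symm x = (x 0, Fin.tail x) := rfl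

lemma volume_preserving_consE (m : ℕ) :
    MeasurePreserving (consE m) (volume : Measure (ℝ × Co m)) volume := by
  have h := ((volume_preserving_piFinSuccAbove (fun _ : Fin (m + 1) => ℝ) 0).symm _)
  have e : (⇑(consE m) : ℝ × Co m → Co (m + 1))
      = ⇑(MeasurableEquiv.piFinSuccAbove (fun _ : Fin (m + 1) => ℝ) 0).symm := by
    funext p
    show (Fin.cons p.1 p.2 : Co (m + 1)) = Fin.insertNth (α := fun _ => ℝ) 0 p.1 p.2
    rw [Fin.insertNth_zero]; rfl
  rw [e]
  exact h

lemma integral_consE {f : Co (m + 1) → ℝ} : ∫ p : ℝ × Co m, f (consE m p) = ∫ x, f x :=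
  (volume_preserving_consE m).integral_comp
    (consE m).toHomeomorph.measurableEmbedding f

lemma cons_dot (u v : ℝ) (y z : Co m) :
    (Fin.cons u y : Co (m + 1)) ⬝ᵥ (Fin.cons v z : Co (m + 1)) = u * v + y ⬝ᵥ z := by
  simp [dotProduct, Fin.sum_univ_succ]

lemma tb_quad (A : Matrix (Fin (m + 1)) (Fin (m + 1)) ℝ) (u v : Co m) :
    (Fin.cons 0 u : Co (m + 1)) ⬝ᵥ (A *ᵥ (Fin.cons 0 v : Co (m + 1))) = u ⬝ᵥ (tb A *ᵥ v) := by
  simp [dotProduct, Fin.sum_univ_succ, Matrix.mulVec, tb]

lemma cons_zero_co : (Fin.cons 0 (0 : Co m) : Co (m + 1)) = 0 := by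
  funext i; refine Fin.cases ?_ (fun j => ?_) i <;> simp

section

variable {mul : Co (m + 1) → Co (m + 1) → Co (m + 1)} (hG : Triangular (m + 1) mul)

include hG

lemma mul_zero_coord (a x : Co (m + 1)) : mul a x 0 = a 0 + x 0 :=
  (hG.tri a x 0 fun j hj => absurd hj (by simp)).1

lemma mul_slice (y y' : Co m) (t : ℝ) :
    mul (Fin.cons 0 y) (Fin.cons t y') = Fin.cons t (sliceMul mul y y') := by
  funext i
  refine Fin.cases ?_ (fun j => ?_) i
  · rw [mul_zero_coord hG]; simp
  · have hm : 0 < m := by have := j.isLt; omega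
    set i1 : Fin (m + 1) := (⟨0, hm⟩ : Fin m).succ
    have h := (hG.tri (Fin.cons 0 y) (Fin.cons t y') i1 fun k hk => by
      have : k = 0 := by
        have h1 : (k : ℕ) < 1 := hk
        exact Fin.ext (show (k : ℕ) = 0 by omega)
      subst this; simp).2.2 j.succ (by simp [i1, Fin.le_def])
    rw [h, Fin.cons_succ]
    show _ = mul (Fin.cons 0 y) (Fin.cons 0 y') j.succ
    congr 2
    funext k
    refine Fin.cases ?_ (fun l => ?_) k
    · simp [i1]
    · simp [i1, Fin.lt_def]

lemma contDiff_sliceMul (y : Co m) : ContDiff ℝ 1 (sliceMul mul y) := by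
  refine contDiff_pi.2 fun i => ?_
  have h1 : ContDiff ℝ 1 fun y' : Co m => (Fin.cons 0 y' : Co (m + 1)) :=
    (consE m).contDiff.comp (contDiff_const.prodMk contDiff_id)
  exact (contDiff_pi.1 ((hG.smooth (Fin.cons 0 y)).comp h1)) i.succ

lemma triangular_slice : Triangular m (sliceMul mul) where
  smooth := contDiff_sliceMul hG
  assoc a b x := by
    have h := hG.assoc (Fin.cons 0 a) (Fin.cons 0 b) (Fin.cons 0 x)
    rw [mul_slice hG a b, mul_slice hG (sliceMul mul a b) x, mul_slice hG b x,
      mul_slice hG a] at h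
    simpa using congrArg Fin.tail h
  one_mul x := by
    have h := hG.one_mul (Fin.cons 0 x)
    show Fin.tail (mul (Fin.cons 0 0) _) = x
    rw [cons_zero_co, h, Fin.tail_cons]
  mul_one x := by
    show Fin.tail (mul _ (Fin.cons 0 0)) = x
    rw [cons_zero_co, hG.mul_one, Fin.tail_cons]
  inv a := by
    obtain ⟨b, h1, h2⟩ := hG.inv (Fin.cons 0 a)
    have hb : b 0 = 0 := by
      have h := congrFun h1 0
      rw [mul_zero_coord hG] at h
      simpa using h
    have e : b = Fin.cons 0 (Fin.tail b) := by conv_lhs => rw [← Fin.cons_self_tail b, hb]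
    rw [e, mul_slice hG] at h1 h2
    exact ⟨Fin.tail b, funext fun i => by simpa using congrFun h1 i.succ,
      funext fun i => by simpa using congrFun h2 i.succ⟩
  tri a x i ha := by
    obtain ⟨h1, h2, h3⟩ := hG.tri (Fin.cons 0 a) (Fin.cons 0 x) i.succ fun j hj => by
      revert hj
      refine Fin.cases (fun _ => by simp) (fun k hk => ?_) j
      simpa using ha k (Fin.succ_lt_succ_iff.1 hk)
    refine ⟨by simpa [sliceMul, Fin.tail] using h1, fun j hj => ?_, fun j hj => ?_⟩
    · simpa [sliceMul, Fin.tail] using h2 j.succ (Fin.succ_lt_succ_iff.2 hj)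
    · show mul _ _ j.succ = mul _ _ j.succ
      rw [h3 j.succ (Fin.succ_le_succ_iff.2 hj)]
      congr 2
      funext k
      refine Fin.cases ?_ (fun l => ?_) k
      · simp
      · simp [Fin.succ_lt_succ_iff]

omit hG in
lemma hasFDerivAt_consRight (t : ℝ) (y : Co m) :
    HasFDerivAt (fun z : Co m => (Fin.cons t z : Co (m + 1)))
      ((consE m : (ℝ × Co m) →L[ℝ] Co (m + 1)).comp (ContinuousLinearMap.inr ℝ ℝ (Co m))) y :=
  (consE m).hasFDerivAt.comp y (hasFDerivAt_prodMk_right t y)

lemma fderiv_slice (a y u : Co m) (t : ℝ) :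
    fderiv ℝ (mul (Fin.cons 0 a)) (Fin.cons t y) (Fin.cons 0 u)
      = Fin.cons 0 (fderiv ℝ (sliceMul mul a) y u) := by
  have h1 := ((hG.smooth (Fin.cons 0 a)).differentiable one_ne_zero (Fin.cons t y)).hasFDerivAt.comp y
    (hasFDerivAt_consRight t y)
  have h2 := (hasFDerivAt_consRight t (sliceMul mul a y)).comp y
    ((contDiff_sliceMul hG a).differentiable one_ne_zero y).hasFDerivAt
  have e : mul (Fin.cons 0 a) ∘ (fun z : Co m => (Fin.cons t z : Co (m + 1)))
      = (fun z : Co m => (Fin.cons t z : Co (m + 1))) ∘ sliceMul mul a :=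
    funext fun z => mul_slice hG a z t
  rw [e] at h1
  simpa using DFunLike.congr_fun (h1.unique h2) u

lemma invariant_slice {g : Co (m + 1) → Matrix (Fin (m + 1)) (Fin (m + 1)) ℝ}
    (hg : LeftInvariant mul g) (t : ℝ) :
    LeftInvariant (sliceMul mul) fun y => tb (g (Fin.cons t y)) := by
  intro a y u v
  have h := hg (Fin.cons 0 a) (Fin.cons t y) (Fin.cons 0 u) (Fin.cons 0 v)
  rwa [fderiv_slice hG, fderiv_slice hG, mul_slice hG, tb_quad, tb_quad] at h

end

section

variable {mul : Co n → Co n → Co n} (hG : Triangular n mul)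

include hG

lemma mul_inverse {a b : Co n} (h : mul a b = 0) (x : Co n) : mul a (mul b x) = x := by
  rw [← hG.assoc, h, hG.one_mul]

lemma fderiv_inverse {a b : Co n} (h : mul a b = 0) (x v : Co n) :
    fderiv ℝ (mul a) (mul b x) (fderiv ℝ (mul b) x v) = v := by
  have h1 := ((hG.smooth a).differentiable one_ne_zero (mul b x)).hasFDerivAt.comp x
    ((hG.smooth b).differentiable one_ne_zero x).hasFDerivAt
  rw [show mul a ∘ mul b = id from funext (mul_inverse hG h)] at h1
  exact DFunLike.congr_fun (h1.unique (hasFDerivAt_id x)) v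

/-- Left translations as homeomorphisms. -/
noncomputable def leftHomeo (a : Co n) : Co n ≃ₜ Co n where
  toFun := mul a
  invFun := mul (Classical.choose (hG.inv a))
  left_inv x := mul_inverse hG (Classical.choose_spec (hG.inv a)).2 x
  right_inv x := mul_inverse hG (Classical.choose_spec (hG.inv a)).1 x
  continuous_toFun := (hG.smooth a).continuous
  continuous_invFun := (hG.smooth _).continuous

omit hG in
lemma mdens_invariant {g : Co n → Matrix (Fin n) (Fin n) ℝ} (hg : LeftInvariant mul g)
    (a x : Co n) : |(fderiv ℝ (mul a) x).det| * mdens g (mul a x) = mdens g x := by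
  set J := fderiv ℝ (mul a) x
  set P := LinearMap.toMatrix' (J : Co n →ₗ[ℝ] Co n)
  have hP : ∀ v, P *ᵥ v = J v := fun v => LinearMap.toMatrix'_mulVec _ v
  have e : Pᵀ * g (mul a x) * P = g x := by
    refine Matrix.ext fun i j => ?_
    have h := hg a x (Pi.single i 1) (Pi.single j 1)
    rw [← hP, ← hP, mulVec_mulVec, dotProduct_comm (P *ᵥ _), dotProduct_mulVec,
      ← mulVec_transpose, mulVec_mulVec, dotProduct_comm] at h
    simpa [Matrix.mul_assoc, mulVec_single_one] using h
  have hdet : J.det = P.det := (LinearMap.det_toMatrix' _).symm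
  simp only [mdens]
  rw [← e, det_mul, det_mul, det_transpose, hdet,
    show P.det * (g (mul a x)).det * P.det = P.det ^ 2 * (g (mul a x)).det by ring,
    Real.sqrt_mul (sq_nonneg _), Real.sqrt_sq_eq_abs]

lemma integral_translate (a : Co n) (f : Co n → ℝ) :
    ∫ x, |(fderiv ℝ (mul a) x).det| * f (mul a x) = ∫ x, f x := by
  have h := integral_image_eq_integral_abs_det_fderiv_smul volume (MeasurableSet.univ (α := Co n))
    (fun x _ => ((hG.smooth a).differentiable one_ne_zero x).hasFDerivAt.hasFDerivWithinAt)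
    (leftHomeo hG a).injective.injOn f
  rw [image_univ, show range (mul a) = univ from (leftHomeo hG a).surjective.range_eq] at h
  simpa using h.symm

end

end Vale.Agent.P219.Solv
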