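import Vale.Agent.P219.Solv.Normal

/-!
# P219: the sharp inequality for left-invariant metrics on solvable groups
-/

namespace Vale.Agent.P219.Solv

open MeasureTheory Set Filter Topology Matrix Metric
open scoped Matrix

variable {m : ℕ}

lemma coord_comp_consE_tail (D : (ℝ × Co m) →L[ℝ] ℝ) :
    Fin.tail (coord (D.comp ((consE m).symm : Co (m + 1) →L[ℝ] ℝ × Co m)))
      = coord (D.comp (ContinuousLinearMap.inr ℝ ℝ (Co m))) := by
  funext i
  simp only [Fin.tail, coord, ContinuousLinearMap.comp_apply, ContinuousLinearEquiv.coe_coe,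
    consE_symm_apply, ContinuousLinearMap.inr_apply]
  congr 1
  refine Prod.ext (by simp [Fin.succ_ne_zero]) (funext fun j => ?_)
  simp [Fin.tail, Pi.single_apply]

section

variable {mul : Co (m + 1) → Co (m + 1) → Co (m + 1)}
  {g : Co (m + 1) → Matrix (Fin (m + 1)) (Fin (m + 1)) ℝ}
  (hG : Triangular (m + 1) mul) (hg : IsMetric g) (hi : LeftInvariant mul g)

include hG hg hi

lemma hasDerivAt_fibre {h : ℝ × Co m → ℝ} (hh : ContDiff ℝ 1 h) (hc : HasCompactSupport h)
    (t : ℝ) :
    HasDerivAt (fun u => ∫ y, mdens g (consE m (u, y)) * h (u, y))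
      (((∫ y, mdens g (consE m (t, y))
          * fderiv ℝ h (t, y) (speed g, speed g • shift (g (consE m (t, y)))))
        + dvg g 0 * ∫ y, mdens g (consE m (t, y)) * h (t, y)) / speed g) t := by
  have hc0 : 0 < speed g := inv_pos.2 (Real.sqrt_pos.2 (sig_pos (hg.1 0)))
  set ρ := fun p : ℝ × Co m => mdens g (consE m p)
  have hρ : ContDiff ℝ 1 ρ := hg.contDiff_mdens.comp (consE m).contDiff
  set Z := fun p : ℝ × Co m => speed g • shift (g (consE m p))
  have hZi : ∀ (p : ℝ × Co m) (i : Fin m), unitN g (consE m p) i.succ = Z p i := fun p i => by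
    simp [unitN, nrm, Z]
  have hPc : IsCompact (Prod.snd '' tsupport h) := hc.isCompact.image continuous_snd
  set P := Prod.snd '' tsupport h
  have hP0 : ∀ u y, y ∉ P → h (u, y) = 0 := fun u y hy =>
    image_eq_zero_of_notMem_tsupport fun hin => hy ⟨_, hin, rfl⟩
  have hDP : ∀ u y, y ∉ P → fderiv ℝ h (u, y) = 0 := fun u y hy => by
    by_contra hne
    exact hy ⟨_, support_fderiv_subset ℝ (Function.mem_support.2 hne), rfl⟩
  set f' := fun p : ℝ × Co m => fderiv ℝ (fun q => ρ q * h q) p (1, 0)
  have hρh : ContDiff ℝ 1 fun q => ρ q * h q := hρ.mul hh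
  have hf' : ∀ p, f' p = ρ p * fderiv ℝ h p (1, 0) + h p * fderiv ℝ ρ p (1, 0) := fun p => by
    simp only [f']
    rw [fderiv_fun_mul (hρ.differentiable one_ne_zero p) (hh.differentiable one_ne_zero p)]
    simp
  have hf'c : Continuous f' := (hρh.continuous_fderiv one_ne_zero).clm_apply continuous_const
  obtain ⟨C, hC⟩ := hf'c.bounded_above_of_compact_support ((hc.mul_left).fderiv_apply ℝ (1, 0))
  have hd := hasDerivAt_integral_of_dominated_loc_of_deriv_le (μ := (volume : Measure (Co m)))
    (F := fun u y => ρ (u, y) * h (u, y)) (F' := fun u y => f' (u, y))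
    (bound := P.indicator fun _ => C) (x₀ := t) (s := univ) univ_mem
    (Eventually.of_forall fun u => ((hρh.continuous).comp
      (Continuous.prodMk_right u)).aestronglyMeasurable)
    ((hρh.continuous.comp (Continuous.prodMk_right t)).integrable_of_hasCompactSupport
      (HasCompactSupport.intro hPc fun y hy => by simp [hP0 t y hy]))
    (hf'c.comp (Continuous.prodMk_right t)).aestronglyMeasurable
    (ae_of_all _ fun y u _ => by
      by_cases hy : y ∈ P
      · rw [indicator_of_mem hy]; exact hC _
      · rw [indicator_of_notMem hy, hf', hP0 u y hy, hDP u y hy]; simp)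
    ((integrable_indicator_iff hPc.measurableSet).2 (integrableOn_const hPc.measure_lt_top.ne))
    (ae_of_all _ fun y u _ => by
      exact ((hρh.differentiable one_ne_zero (u, y)).hasFDerivAt).comp_hasDerivAt u
        ((hasDerivAt_id u).prodMk (hasDerivAt_const u y)))
  refine hd.2.congr_deriv ?_
  rw [eq_div_iff hc0.ne', mul_comm, ← integral_const_mul]
  -- the tangential part integrates to zero
  set q := fun (i : Fin m) (y : Co m) => ρ (t, y) * Z (t, y) i
  have hq : ∀ i, ContDiff ℝ 1 (q i) := fun i => by
    have := (contDiff_flux hg i.succ).comp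
      ((consE m).contDiff.comp (contDiff_const (c := t).prodMk contDiff_id))
    exact this
  set k := fun y : Co m => h (t, y)
  have hk : ContDiff ℝ 1 k := hh.comp (contDiff_const.prodMk contDiff_id)
  have hkc : HasCompactSupport k := HasCompactSupport.intro hPc fun y hy => hP0 t y hy
  have i1 : ∀ i, Integrable fun y => q i y * fderiv ℝ k y (Pi.single i 1) := fun i =>
    ((hq i).continuous.mul ((hk.continuous_fderiv one_ne_zero).clm_apply
      continuous_const)).integrable_of_hasCompactSupport (hkc.fderiv_apply ℝ _).mul_left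
  have i2 : ∀ i, Integrable fun y => fderiv ℝ (q i) y (Pi.single i 1) * k y := fun i =>
    ((((hq i).continuous_fderiv one_ne_zero).clm_apply continuous_const).mul
      hk.continuous).integrable_of_hasCompactSupport hkc.mul_left
  have hzero : ∀ i, ∫ y, q i y * fderiv ℝ k y (Pi.single i 1) + fderiv ℝ (q i) y (Pi.single i 1) * k y
      = 0 := fun i => by
    rw [integral_add (i1 i) (i2 i), integral_mul_fderiv_eq_neg_fderiv_mul_of_integrable (i2 i) (i1 i)
      (((hq i).continuous.mul hk.continuous).integrable_of_hasCompactSupport hkc.mul_left)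
      (fun y _ => (hq i).differentiable one_ne_zero y)
      (fun y _ => hk.differentiable one_ne_zero y)]
    ring
  have e : ∀ y, ρ (t, y) * fderiv ℝ h (t, y) (speed g, Z (t, y)) + dvg g 0 * (ρ (t, y) * h (t, y))
      = speed g * f' (t, y)
        + ∑ i, (q i y * fderiv ℝ k y (Pi.single i 1) + fderiv ℝ (q i) y (Pi.single i 1) * k y) := by
    intro y
    have hk' : fderiv ℝ k y = (fderiv ℝ h (t, y)).comp (ContinuousLinearMap.inr ℝ ℝ (Co m)) :=
      ((hh.differentiable one_ne_zero (t, y)).hasFDerivAt.comp y
        (hasFDerivAt_prodMk_right t y)).fderiv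
    have hD : fderiv ℝ h (t, y) (speed g, Z (t, y))
        = speed g * fderiv ℝ h (t, y) (1, 0) + ∑ i, Z (t, y) i * fderiv ℝ k y (Pi.single i 1) := by
      rw [show ((speed g, Z (t, y)) : ℝ × Co m) = speed g • ((1 : ℝ), (0 : Co m)) + (0, Z (t, y))
          by simp, map_add, map_smul, smul_eq_mul]
      congr 1
      have := apply_eq_coord (fderiv ℝ k y) (Z (t, y))
      rw [hk'] at this ⊢
      refine this.trans (Finset.sum_congr rfl fun i _ => ?_)
      exact mul_comm _ _
    set x := consE m (t, y)
    have hx : dvg g 0 * ρ (t, y) = ∑ j, fderiv ℝ (fun z => mdens g z * unitN g z j) x (Pi.single j 1) := by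
      rw [← dvg_invariant hG hg hi x, dvg]
      exact div_mul_cancel₀ _ (hg.mdens_pos x).ne'
    have hj0 : fderiv ℝ (fun z => mdens g z * unitN g z 0) x (Pi.single 0 1)
        = speed g * fderiv ℝ ρ (t, y) (1, 0) := by
      have h1 : (fun z => mdens g z * unitN g z 0) = fun z => speed g * mdens g z := by
        funext z; simp [unitN, nrm]; ring
      have h2 : fderiv ℝ ρ (t, y)
          = (fderiv ℝ (mdens g) x).comp (consE m : (ℝ × Co m) →L[ℝ] Co (m + 1)) :=
        by
          show fderiv ℝ (mdens g ∘ consE m) (t, y) = _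
          exact ((hg.contDiff_mdens.differentiable one_ne_zero x).hasFDerivAt.comp (t, y)
            (consE m).hasFDerivAt).fderiv
      rw [h1, h2, fderiv_const_mul (hg.contDiff_mdens.differentiable one_ne_zero x)]
      simp only [_root_.smul_apply, smul_eq_mul, ContinuousLinearMap.comp_apply,
        ContinuousLinearEquiv.coe_coe, consE_apply]
      congr 2
      funext j
      refine Fin.cases ?_ (fun l => ?_) j <;> simp
    have hji : ∀ i : Fin m, fderiv ℝ (fun z => mdens g z * unitN g z i.succ) x (Pi.single i.succ 1)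
        = fderiv ℝ (q i) y (Pi.single i 1) := fun i => by
      have h2 := (((contDiff_flux hg i.succ).differentiable one_ne_zero
        (Fin.cons t y)).hasFDerivAt.comp y (hasFDerivAt_consRight t y)).fderiv
      have h3 : q i = (fun z => mdens g z * unitN g z i.succ)
          ∘ fun z : Co m => (Fin.cons t z : Co (m + 1)) := by
        funext z; simp only [q, Function.comp_apply, ← hZi]; rfl
      rw [h3, h2]
      simp only [ContinuousLinearMap.comp_apply, ContinuousLinearMap.inr_apply,
        ContinuousLinearEquiv.coe_coe, consE_apply]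
      congr 1
      funext j
      refine Fin.cases ?_ (fun l => ?_) j
      · simp [Fin.succ_ne_zero]
      · simp [Pi.single_apply]
    rw [Fin.sum_univ_succ, hj0] at hx
    simp only [hji] at hx
    rw [hD, hf', ← mul_assoc (dvg g 0), hx, Finset.sum_add_distrib, mul_add, add_mul,
      Finset.mul_sum, Finset.sum_mul]
    simp only [q, k, ← mul_assoc]
    ring
  have j1 : Integrable fun y => ρ (t, y) * fderiv ℝ h (t, y) (speed g, Z (t, y)) := by
    refine ((hρ.continuous.comp (Continuous.prodMk_right t)).mul
      (((hh.continuous_fderiv one_ne_zero).comp (Continuous.prodMk_right t)).clm_apply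
      (continuous_const.prodMk (continuous_pi fun i => ?_)))).integrable_of_hasCompactSupport
      (HasCompactSupport.intro hPc fun y hy => by simp [hDP t y hy])
    exact (((contDiff_unitN hg i.succ).continuous.comp
      ((consE m).continuous.comp (Continuous.prodMk_right t))).congr fun y => hZi (t, y) i)
  have j2 : Integrable fun y => ρ (t, y) * h (t, y) :=
    (hρh.continuous.comp (Continuous.prodMk_right t)).integrable_of_hasCompactSupport
      (HasCompactSupport.intro hPc fun y hy => by simp [hP0 t y hy])
  have j3 : Integrable fun y => speed g * f' (t, y) :=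
    ((hf'c.comp (Continuous.prodMk_right t)).integrable_of_hasCompactSupport
      (HasCompactSupport.intro hPc fun y hy => by
        simp [hf', hP0 t y hy, hDP t y hy])).const_mul _
  show ∫ y, speed g * f' (t, y) = _
  rw [← integral_const_mul (dvg g 0), ← integral_add j1 (j2.const_mul _)]
  simp only [e]
  rw [integral_add j3 (integrable_finsetSum _ fun i _ => (i1 i).fun_add (i2 i)),
    integral_finsetSum _ (fun i _ => (i1 i).fun_add (i2 i))]
  simp [hzero]

/-- One step of the induction. -/
lemma cap_succ (hm : 0 < m)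
    (IH : ∀ t, Cap m (mdens fun y => tb (g (Fin.cons t y))) (mnorm fun y => tb (g (Fin.cons t y)))) :
    Cap (m + 1) (mdens g) (mnorm g) := by
  have hc0 : 0 < speed g := inv_pos.2 (Real.sqrt_pos.2 (sig_pos (hg.1 0)))
  set e := consE m
  have H : StepHyp m (fun p => mdens g (e p))
      (fun p D => mnorm g (e p) (D.comp (e.symm : Co (m + 1) →L[ℝ] ℝ × Co m)))
      (fun t => mnorm fun y => tb (g (Fin.cons t y))) (speed g)
      (fun p => speed g • shift (g (e p))) (fun _ => dvg g 0) :=
    { pos := hm
      cρ := hg.contDiff_mdens.continuous.comp e.continuous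
      ρpos := fun p => hg.mdens_pos _
      cN := hg.continuous_mnorm.comp ((e.continuous.comp continuous_fst).prodMk
        (continuous_snd.clm_comp continuous_const))
      cN' := fun t => (isMetric_slice hg t).continuous_mnorm
      homog := fun p D r hr => by
        rw [ContinuousLinearMap.smul_comp, mnorm_smul g _ _ hr]
      split := fun p D s b hb hsb => by
        have h := le_dual (hg.1 (e p))
          (coord (D.comp (e.symm : Co (m + 1) →L[ℝ] ℝ × Co m))) hb hsb
        refine le_trans (le_of_eq ?_) h
        rw [sig_invariant hG hg hi, coord_comp_consE_tail, ← apply_eq_coord]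
        have e1 : (e.symm : Co (m + 1) →L[ℝ] ℝ × Co m) (nrm (g (e p)))
            = ((1 : ℝ), shift (g (e p))) := by simp [e, nrm]
        rw [ContinuousLinearMap.comp_apply, e1,
          show ((speed g, speed g • shift (g (e p))) : ℝ × Co m)
            = speed g • ((1 : ℝ), shift (g (e p))) by simp, map_smul, smul_eq_mul]
        simp only [speed, mnorm, tb, e, consE_apply]
        ring
      nn' := fun t y D => Real.sqrt_nonneg _
      cpos := hc0
      cZ := by
        refine continuous_pi fun i => ?_
        exact (((contDiff_unitN hg i.succ).continuous.comp e.continuous).congr fun p => by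
          simp [unitN, nrm, e])
      mono := monotone_const
      ca := continuous_const
      slice := fun t => by
        have : (fun y => speed g * mdens g (e (t, y))) = mdens fun y => tb (g (Fin.cons t y)) := by
          funext y
          simp only [mdens, e, consE_apply]
          rw [det_eq (hg.1 _), sig_invariant hG hg hi, Real.sqrt_mul (sig_pos (hg.1 0)).le,
            speed, ← mul_assoc, inv_mul_cancel₀ (Real.sqrt_pos.2 (sig_pos (hg.1 0))).ne', one_mul]
        rw [this]
        exact IH t
      divergence := fun h hh hc t => hasDerivAt_fibre hG hg hi hh hc t }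
  intro h δ hh hc h0 hδ hpos
  have hset : ∫ p in {p | δ ≤ (h ∘ e) p}, mdens g (e p) = ∫ x in {x | δ ≤ h x}, mdens g x :=
    (volume_preserving_consE m).setIntegral_preimage_emb e.toHomeomorph.measurableEmbedding
      (mdens g) {x | δ ≤ h x}
  have := H.cap (h ∘ e) δ (hh.comp e.contDiff) (hc.comp_homeomorph e.toHomeomorph)
    (fun p => h0 _) hδ (hset ▸ hpos)
  rw [hset] at this
  refine this.trans (le_of_eq ?_)
  rw [← integral_consE (m := m) (f := fun x => mdens g x * mnorm g x (fderiv ℝ h x))]
  congr 1; funext p
  rw [((hh.differentiable one_ne_zero (e p)).hasFDerivAt.comp p e.hasFDerivAt).fderiv]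
  congr 2
  ext v
  simp [e]

end

/-- The one-dimensional case. -/
lemma cap_one {g : Co 1 → Matrix (Fin 1) (Fin 1) ℝ} (hg : IsMetric g) :
    Cap 1 (mdens g) (mnorm g) := by
  intro h δ hh hc h0 hδ hpos
  have hκ : kap 1 = 2 := by
    rw [kap, Nat.cast_one, inv_one, Real.rpow_one, Measure.real, InnerProductSpace.volume_closedBall]
    simp [Real.Gamma_add_one]
    rw [show (2 : ℝ)⁻¹ = 1 / 2 by norm_num, Real.Gamma_one_half_eq]
    have := Real.sqrt_ne_zero'.2 Real.pi_pos
    field_simp
    simp
  rw [hκ]
  norm_num
  have e : ∀ x, mdens g x * mnorm g x (fderiv ℝ h x) = |fderiv ℝ h x (Pi.single 0 1)| := fun x => by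
    have hpos' := (hg.1 x).det_pos
    rw [Matrix.det_fin_one] at hpos'
    rw [mdens, mnorm, Matrix.det_fin_one, ← Real.sqrt_mul hpos'.le, ← Real.sqrt_sq_eq_abs]
    congr 1
    simp [dotProduct, Matrix.mulVec, coord]
    field_simp
  simp only [e]
  obtain ⟨x₀, hx₀⟩ : ∃ x₀, δ ≤ h x₀ := by
    by_contra hne
    push Not at hne
    rw [show {x | δ ≤ h x} = ∅ from Set.eq_empty_of_forall_notMem fun x hx =>
      absurd hx (not_le.2 (hne x)), setIntegral_empty] at hpos
    exact lt_irrefl _ hpos
  set ι := fun s : ℝ => (fun _ => s : Co 1)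
  have hι : ∀ s, HasDerivAt ι (Pi.single 0 1) s := fun s =>
    hasDerivAt_pi.2 fun i => by
      rw [Subsingleton.elim i 0, Pi.single_eq_same]; exact hasDerivAt_id s
  set f := fun s => h (ι s)
  set f' := fun s => fderiv ℝ h (ι s) (Pi.single 0 1)
  have hf : ∀ s, HasDerivAt f (f' s) s := fun s =>
    (hh.differentiable one_ne_zero (ι s)).hasFDerivAt.comp_hasDerivAt s (hι s)
  have hf'c : Continuous f' :=
    ((hh.continuous_fderiv one_ne_zero).comp (continuous_pi fun _ => continuous_id)).clm_apply
      continuous_const
  obtain ⟨R₀, hR₀⟩ := hc.isCompact.isBounded.exists_norm_le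
  set R := max R₀ |x₀ 0| + 1
  have hR0 : 0 ≤ R := by positivity
  have hsup : ∀ s, R ≤ |s| → f s = 0 := fun s hs =>
    image_eq_zero_of_notMem_tsupport (f := h) fun hin => by
    have h1 := hR₀ _ hin
    have : |s| ≤ ‖ι s‖ := norm_le_pi_norm (ι s) 0
    linarith [le_max_left R₀ |x₀ 0|]
  have hx : |x₀ 0| ≤ R - 1 := by simp [R]
  have e2 : ι (x₀ 0) = x₀ := funext fun i => by rw [Subsingleton.elim i 0]
  have hmem := abs_le.1 hx
  have habs : Continuous fun s => |f' s| := hf'c.abs
  have h1 : f (x₀ 0) ≤ ∫ s in (-R)..(x₀ 0), |f' s| := by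
    have := intervalIntegral.integral_eq_sub_of_hasDerivAt (fun s _ => hf s)
      (hf'c.intervalIntegrable (-R) (x₀ 0))
    rw [hsup (-R) (by rw [abs_neg]; exact le_abs_self R), sub_zero] at this
    rw [← this]
    exact (le_abs_self _).trans (intervalIntegral.abs_integral_le_integral_abs (by linarith))
  have h2 : f (x₀ 0) ≤ ∫ s in (x₀ 0)..R, |f' s| := by
    have := intervalIntegral.integral_eq_sub_of_hasDerivAt (fun s _ => hf s)
      (hf'c.intervalIntegrable (x₀ 0) R)
    rw [hsup R (le_abs_self R), zero_sub] at this
    rw [show f (x₀ 0) = -∫ s in (x₀ 0)..R, f' s by linarith]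
    exact (neg_le_abs _).trans (intervalIntegral.abs_integral_le_integral_abs (by linarith))
  have h3 : ∫ s in (-R)..R, |f' s| ≤ ∫ x, |fderiv ℝ h x (Pi.single 0 1)| := by
    have hmp : MeasurePreserving (MeasurableEquiv.funUnique (Fin 1) ℝ).symm volume volume :=
      (volume_preserving_funUnique (Fin 1) ℝ).symm _
    have hh' : (fun s => |f' s|) = fun s =>
        |fderiv ℝ h ((MeasurableEquiv.funUnique (Fin 1) ℝ).symm s) (Pi.single 0 1)| := by
      funext s; rfl
    rw [← hmp.integral_comp', intervalIntegral.integral_of_le (by linarith), ← hh']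
    refine setIntegral_le_integral ?_ (ae_of_all _ fun s => abs_nonneg _)
    refine habs.integrable_of_hasCompactSupport (HasCompactSupport.intro isCompact_Icc
      (K := Icc (-R) R) fun s hs => ?_)
    have : |s| > R - 1 := by
      rw [mem_Icc, not_and_or, not_le, not_le] at hs
      rcases hs with hs | hs
      · linarith [neg_abs_le s]
      · linarith [le_abs_self s]
    have hin : ι s ∉ tsupport h := fun hin => by
      have h1 := hR₀ _ hin
      have : |s| ≤ ‖ι s‖ := norm_le_pi_norm (ι s) 0
      linarith [le_max_left R₀ |x₀ 0|]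
    have : fderiv ℝ h (ι s) = 0 := by
      by_contra hne
      exact hin (support_fderiv_subset ℝ (Function.mem_support.2 hne))
    simp [f', this]
  have h4 := intervalIntegral.integral_add_adjacent_intervals
    (habs.intervalIntegrable (μ := volume) (-R) (x₀ 0)) (habs.intervalIntegrable (x₀ 0) R)
  have : δ ≤ f (x₀ 0) := by rw [show f (x₀ 0) = h x₀ by simp only [f, e2]]; exact hx₀
  linarith

/-- The capacity inequality for left-invariant metrics on triangular groups. -/
theorem group_cap : ∀ (n : ℕ), 1 ≤ n → ∀ (mul : Co n → Co n → Co n)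
    (g : Co n → Matrix (Fin n) (Fin n) ℝ), Triangular n mul → IsMetric g → LeftInvariant mul g →
    Cap n (mdens g) (mnorm g) := by
  intro n hn
  induction n, hn using Nat.le_induction with
  | base => exact fun mul g _ hg _ => cap_one hg
  | succ k hk ih =>
    intro mul g hG hg hi
    exact cap_succ hG hg hi hk fun t =>
      ih _ _ (triangular_slice hG) (isMetric_slice hg t) (invariant_slice hG hi t)

end Vale.Agent.P219.Solv
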