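import Vale.Agent.P219.Slice.Profile

/-!
# P219: iterated slicing, the layers of a test function
-/

namespace Vale.Agent.P219.Solv

open MeasureTheory Set Filter Topology Metric

/-- The capacity form of the sharp isoperimetric inequality for the volume density `ρ` and the
norm `N` of differentials. -/
def Cap {X : Type*} [NormedAddCommGroup X] [NormedSpace ℝ X] [MeasureSpace X]
    (n : ℕ) (ρ : X → ℝ) (N : X → (X →L[ℝ] ℝ) → ℝ) : Prop :=
  ∀ h : X → ℝ, ∀ δ : ℝ, ContDiff ℝ 1 h → HasCompactSupport h → (∀ x, 0 ≤ h x) → 0 < δ →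
    0 < ∫ x in {x | δ ≤ h x}, ρ x →
    n * kap n * δ * (∫ x in {x | δ ≤ h x}, ρ x) ^ ((n - 1 : ℝ) / n)
      ≤ ∫ x, ρ x * N x (fderiv ℝ h x)

/-- The square of the positive part. -/
lemma hasDerivAt_posSq (x : ℝ) : HasDerivAt (fun y : ℝ => max y 0 ^ 2) (2 * max x 0) x := by
  rcases lt_trichotomy x 0 with h | rfl | h
  · have : (fun y : ℝ => max y 0 ^ 2) =ᶠ[𝓝 x] fun _ => (0 : ℝ) := by
      filter_upwards [Iio_mem_nhds h] with y hy
      simp [max_eq_right (le_of_lt (show y < (0 : ℝ) from hy))]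
    rw [max_eq_right h.le, mul_zero]
    exact (hasDerivAt_const x (0 : ℝ)).congr_of_eventuallyEq this
  · rw [max_self, mul_zero]
    rw [hasDerivAt_iff_isLittleO]
    simp only [max_self, sub_zero, smul_eq_mul, mul_zero, ne_eq, OfNat.ofNat_ne_zero,
      not_false_eq_true, zero_pow]
    refine Asymptotics.IsBigO.trans_isLittleO ?_
      (Asymptotics.isLittleO_pow_id (by norm_num : 1 < 2))
    refine Asymptotics.IsBigO.of_bound 1 (Eventually.of_forall fun y => ?_)
    simp only [Real.norm_eq_abs, one_mul, abs_pow]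
    exact pow_le_pow_left₀ (abs_nonneg _) (by
      rcases le_total y 0 with hy | hy <;> simp [hy]) 2
  · have : (fun y : ℝ => max y 0 ^ 2) =ᶠ[𝓝 x] fun y => y ^ 2 := by
      filter_upwards [Ioi_mem_nhds h] with y hy
      simp [max_eq_left (le_of_lt (show (0 : ℝ) < y from hy))]
    rw [max_eq_left h.le]
    simpa using (hasDerivAt_pow 2 x).congr_of_eventuallyEq this

/-- The smoothed positive part at scale `η`. -/
noncomputable def ramp (η x : ℝ) : ℝ := (max x 0 ^ 2 - max (x - η) 0 ^ 2) / (2 * η)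

/-- Its derivative. -/
noncomputable def dramp (η x : ℝ) : ℝ := (max x 0 - max (x - η) 0) / η

lemma hasDerivAt_ramp (η x : ℝ) : HasDerivAt (ramp η) (dramp η x) x := by
  have h2 : HasDerivAt (fun y : ℝ => max (y - η) 0 ^ 2) (2 * max (x - η) 0) x := by
    simpa [Function.comp_def] using (hasDerivAt_posSq (x - η)).comp x ((hasDerivAt_id' x).sub_const η)
  refine (((hasDerivAt_posSq x).sub h2).div_const (2 * η)).congr_deriv ?_
  rw [dramp, ← mul_sub, mul_div_mul_left _ _ (two_ne_zero)]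

lemma dramp_mem {η : ℝ} (hη : 0 < η) (x : ℝ) : dramp η x ∈ Icc (0 : ℝ) 1 := by
  refine ⟨div_nonneg ?_ hη.le, (div_le_one hη).2 ?_⟩
  · exact sub_nonneg.2 (max_le_max (by linarith) le_rfl)
  · rcases le_total x 0 with h | h
    · rw [max_eq_right h, max_eq_right (by linarith)]; linarith
    · rw [max_eq_left h]; linarith [le_max_left (x - η) 0]

lemma monotone_dramp {η : ℝ} (hη : 0 < η) : Monotone (dramp η) := by
  intro a b hab
  refine div_le_div_of_nonneg_right ?_ hη.le
  simp only [max_def]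
  split_ifs <;> linarith

lemma ramp_of_nonpos {η : ℝ} (hη : 0 < η) {x : ℝ} (hx : x ≤ 0) : ramp η x = 0 := by
  rw [ramp, max_eq_right hx, max_eq_right (by linarith)]; simp

lemma ramp_of_ge {η : ℝ} (hη : 0 < η) {x : ℝ} (hx : η ≤ x) : ramp η x = x - η / 2 := by
  rw [ramp, max_eq_left (by linarith : (0 : ℝ) ≤ x), max_eq_left (by linarith : (0 : ℝ) ≤ x - η)]
  field_simp
  ring

lemma differentiable_ramp (η : ℝ) : Differentiable ℝ (ramp η) :=
  fun x => (hasDerivAt_ramp η x).differentiableAt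

lemma monotone_ramp {η : ℝ} (hη : 0 < η) : Monotone (ramp η) :=
  monotone_of_hasDerivAt_nonneg (hasDerivAt_ramp η) fun x => (dramp_mem hη x).1

/-- The `k`-th layer of thickness `η`. -/
noncomputable def layer (η : ℝ) (k : ℕ) (x : ℝ) : ℝ :=
  ramp η (x - k * η) - ramp η (x - (k + 1 : ℕ) * η)

/-- Its derivative. -/
noncomputable def dlayer (η : ℝ) (k : ℕ) (x : ℝ) : ℝ :=
  dramp η (x - k * η) - dramp η (x - (k + 1 : ℕ) * η)

lemma hasDerivAt_layer (η : ℝ) (k : ℕ) (x : ℝ) :
    HasDerivAt (layer η k) (dlayer η k x) x := by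
  have h1 := (hasDerivAt_ramp η (x - k * η)).comp x ((hasDerivAt_id x).sub_const (k * η : ℝ))
  have h2 := (hasDerivAt_ramp η (x - (k + 1 : ℕ) * η)).comp x
    ((hasDerivAt_id x).sub_const (((k + 1 : ℕ) : ℝ) * η))
  exact (h1.sub h2).congr_deriv (by simp [dlayer])

lemma continuous_dlayer (η : ℝ) (k : ℕ) : Continuous (dlayer η k) := by
  unfold dlayer dramp; fun_prop

lemma contDiff_layer (η : ℝ) (k : ℕ) : ContDiff ℝ 1 (layer η k) := by
  refine contDiff_one_iff_deriv.2 ⟨fun x => (hasDerivAt_layer η k x).differentiableAt, ?_⟩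
  rw [show deriv (layer η k) = dlayer η k from funext fun x => (hasDerivAt_layer η k x).deriv]
  exact continuous_dlayer η k

lemma dlayer_nonneg {η : ℝ} (hη : 0 < η) (k : ℕ) (x : ℝ) : 0 ≤ dlayer η k x :=
  sub_nonneg.2 (monotone_dramp hη (by push_cast; linarith))

lemma sum_dlayer_le {η : ℝ} (hη : 0 < η) (M : ℕ) (x : ℝ) :
    ∑ k ∈ Finset.range M, dlayer η k x ≤ 1 := by
  unfold dlayer
  rw [Finset.sum_range_sub' (fun k : ℕ => dramp η (x - k * η))]
  linarith [(dramp_mem hη (x - (0 : ℕ) * η)).2, (dramp_mem hη (x - M * η)).1]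

lemma layer_nonneg {η : ℝ} (hη : 0 < η) (k : ℕ) (x : ℝ) : 0 ≤ layer η k x :=
  sub_nonneg.2 (monotone_ramp hη (by push_cast; linarith))

lemma layer_le {η : ℝ} (hη : 0 < η) (k : ℕ) (x : ℝ) : layer η k x ≤ η := by
  have h : Monotone fun y => y - ramp η y :=
    monotone_of_hasDerivAt_nonneg (fun y => (hasDerivAt_id y).sub (hasDerivAt_ramp η y))
      fun y => sub_nonneg.2 (dramp_mem hη y).2
  have := h (show x - ((k + 1 : ℕ) : ℝ) * η ≤ x - k * η by push_cast; linarith)
  simp only [layer]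
  push_cast at this ⊢
  linarith

lemma layer_eq_zero {η : ℝ} (hη : 0 < η) {k : ℕ} {x : ℝ} (hx : x ≤ k * η) :
    layer η k x = 0 := by
  rw [layer, ramp_of_nonpos hη (by linarith), ramp_of_nonpos hη (by push_cast; linarith), sub_self]

lemma layer_eq {η : ℝ} (hη : 0 < η) {k : ℕ} {x : ℝ} (hx : (k + 2 : ℕ) * η ≤ x) :
    layer η k x = η := by
  push_cast at hx
  rw [layer, ramp_of_ge hη (by linarith), ramp_of_ge hη (by push_cast; linarith)]
  push_cast; ring

lemma layer_of_two_pos {η : ℝ} (hη : 0 < η) {k : ℕ} {x : ℝ} (hx : layer η (k + 2) x ≠ 0) :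
    layer η k x = η := by
  refine layer_eq hη (le_of_not_ge fun h => hx (layer_eq_zero hη h))

lemma sum_layer_sub_le {η : ℝ} (hη : 0 < η) (M : ℕ) (x : ℝ) :
    ∑ k ∈ Finset.range M, (layer η k x - layer η (k + 2) x) ≤ 2 * η := by
  have e : ∀ k, layer η k x - layer η (k + 2) x
      = (layer η k x + layer η (k + 1) x) - (layer η (k + 1) x + layer η (k + 1 + 1) x) :=
    fun k => by ring
  simp only [e]
  rw [Finset.sum_range_sub' (fun k : ℕ => layer η k x + layer η (k + 1) x)]
  linarith [layer_le hη 0 x, layer_le hη (0 + 1) x, layer_nonneg hη M x, layer_nonneg hη (M + 1) x]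

section

variable {X : Type*} [NormedAddCommGroup X] [NormedSpace ℝ X] {η : ℝ} {h : X → ℝ}

lemma fderiv_layer_comp (k : ℕ) (hh : ContDiff ℝ 1 h) (x : X) :
    fderiv ℝ (fun y => layer η k (h y)) x = dlayer η k (h x) • fderiv ℝ h x :=
  ((hasDerivAt_layer η k (h x)).comp_hasFDerivAt x
    ((hh.differentiable one_ne_zero) x).hasFDerivAt).fderiv

omit [NormedSpace ℝ X] in
lemma hasCompactSupport_layer_comp (hη : 0 < η) (k : ℕ) (hc : HasCompactSupport h) :
    HasCompactSupport fun y => layer η k (h y) :=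
  hc.comp_left (layer_eq_zero hη (by positivity))

end

end Vale.Agent.P219.Solv
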