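import Vale.Agent.P219.Solv.Sum

/-!
# P219: iterated slicing, linear algebra of one slice
-/

namespace Vale.Agent.P219.Solv

open MeasureTheory Set Filter Topology Matrix
open scoped Matrix

variable {m n : ℕ}

lemma apply_eq_coord (D : Co n →L[ℝ] ℝ) (v : Co n) : D v = coord D ⬝ᵥ v := by
  conv_lhs => rw [← Finset.univ_sum_single v]
  rw [map_sum]
  refine Finset.sum_congr rfl fun i _ => ?_
  rw [show (Pi.single i (v i) : Co n) = v i • Pi.single i 1 by simp [← Pi.single_smul],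
    map_smul, smul_eq_mul, mul_comm]
  rfl

/-- The slice block of a matrix. -/
def tb (A : Matrix (Fin (m + 1)) (Fin (m + 1)) ℝ) : Matrix (Fin m) (Fin m) ℝ :=
  A.submatrix Fin.succ Fin.succ

/-- The first column below the diagonal. -/
def col (A : Matrix (Fin (m + 1)) (Fin (m + 1)) ℝ) : Co m := fun i => A i.succ 0

/-- The vertical part of the normal of the slice. -/
noncomputable def shift (A : Matrix (Fin (m + 1)) (Fin (m + 1)) ℝ) : Co m :=
  -((tb A)⁻¹ *ᵥ col A)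

/-- The normal of the slice with first coordinate one. -/
noncomputable def nrm (A : Matrix (Fin (m + 1)) (Fin (m + 1)) ℝ) : Co (m + 1) :=
  Fin.cons 1 (shift A)

/-- Its squared length. -/
noncomputable def sig (A : Matrix (Fin (m + 1)) (Fin (m + 1)) ℝ) : ℝ := (A *ᵥ nrm A) 0

variable {A : Matrix (Fin (m + 1)) (Fin (m + 1)) ℝ}

lemma posDef_tb (hA : A.PosDef) : (tb A).PosDef := hA.submatrix (Fin.succ_injective _)

lemma mulVec_cons_succ (z : ℝ) (y : Co m) (i : Fin m) :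
    (A *ᵥ (Fin.cons z y : Co (m + 1))) i.succ = col A i * z + (tb A *ᵥ y) i := by
  simp [Matrix.mulVec, dotProduct, Fin.sum_univ_succ, col, tb]

lemma mulVec_cons_zero (hA : A.PosDef) (z : ℝ) (y : Co m) :
    (A *ᵥ (Fin.cons z y : Co (m + 1))) 0 = A 0 0 * z + col A ⬝ᵥ y := by
  have hs : ∀ i : Fin m, A 0 i.succ = A i.succ 0 := fun i => by
    simpa using (hA.isHermitian.apply i.succ 0)
  simp [Matrix.mulVec, dotProduct, Fin.sum_univ_succ, col, hs]

lemma mulVec_nrm (hA : A.PosDef) : A *ᵥ nrm A = Fin.cons (sig A) 0 := by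
  funext i
  refine Fin.cases ?_ (fun j => ?_) i
  · simp [sig]
  · rw [nrm, mulVec_cons_succ, shift, mulVec_neg, mulVec_mulVec,
      mul_nonsing_inv _ ((Matrix.isUnit_iff_isUnit_det _).1 (posDef_tb hA).isUnit), one_mulVec]
    simp

lemma nrm_dot (hA : A.PosDef) (z : ℝ) (y : Co m) :
    (Fin.cons z y : Co (m + 1)) ⬝ᵥ (A *ᵥ nrm A) = z * sig A := by
  rw [mulVec_nrm hA]
  simp [dotProduct, Fin.sum_univ_succ]

lemma nrm_sq (hA : A.PosDef) : nrm A ⬝ᵥ (A *ᵥ nrm A) = sig A := by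
  simpa [nrm] using nrm_dot hA 1 (shift A)

lemma sig_pos (hA : A.PosDef) : 0 < sig A := by
  rw [← nrm_sq hA]
  have := hA.dotProduct_mulVec_pos (x := nrm A) (fun h => by simpa [nrm] using congrFun h 0)
  simpa using this

lemma nrm_unique (hA : A.PosDef) {v : Co (m + 1)} (h0 : v 0 = 1)
    (hv : ∀ y : Co m, (Fin.cons 0 y : Co (m + 1)) ⬝ᵥ (A *ᵥ v) = 0) : v = nrm A := by
  set d := v - nrm A
  have hd : d = Fin.cons 0 (fun i => d i.succ) := by
    funext i
    refine Fin.cases ?_ (fun j => ?_) i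
    · simp [d, h0, nrm]
    · simp
  have e : d ⬝ᵥ (A *ᵥ d) = 0 := by
    show d ⬝ᵥ (A *ᵥ (v - nrm A)) = 0
    rw [mulVec_sub, dotProduct_sub, hd, hv, nrm_dot hA]
    ring
  by_contra hne
  have := hA.dotProduct_mulVec_pos (x := d) (sub_ne_zero.2 hne)
  rw [star_trivial, e] at this
  exact lt_irrefl _ this

/-- The matrix with first column `nrm A` and the identity elsewhere. -/
noncomputable def elim (A : Matrix (Fin (m + 1)) (Fin (m + 1)) ℝ) :
    Matrix (Fin (m + 1)) (Fin (m + 1)) ℝ :=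
  Matrix.of fun i j => if j = 0 then nrm A i else (1 : Matrix _ _ ℝ) i j

lemma det_elim : (elim A).det = 1 := by
  rw [Matrix.det_succ_row_zero, Finset.sum_eq_single (0 : Fin (m + 1))]
  · have : (elim A).submatrix Fin.succ (Fin.succAbove (0 : Fin (m + 1))) = 1 := by
      ext i j
      simp [elim, Fin.succ_ne_zero, Matrix.one_apply]
    rw [this, det_one]
    simp [elim, nrm]
  · intro j _ hj
    simp [elim, hj, Matrix.one_apply, Ne.symm hj]
  · simp

lemma det_eq (hA : A.PosDef) : A.det = sig A * (tb A).det := by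
  have h1 : (A * elim A).det = A.det := by rw [det_mul, det_elim, mul_one]
  have hc : ∀ i, (A * elim A) i 0 = (Fin.cons (sig A) 0 : Co (m + 1)) i := fun i => by
    rw [← mulVec_nrm hA]
    simp [Matrix.mul_apply, Matrix.mulVec, dotProduct, elim]
  have ht : ∀ i : Fin (m + 1), ∀ j : Fin m, (A * elim A) i j.succ = A i j.succ := fun i j => by
    simp [Matrix.mul_apply, elim, Fin.succ_ne_zero, Matrix.one_apply]
  rw [← h1, Matrix.det_succ_column_zero, Finset.sum_eq_single (0 : Fin (m + 1))]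
  · have : (A * elim A).submatrix (Fin.succAbove (0 : Fin (m + 1))) Fin.succ = tb A := by
      ext i j; simp [tb, ht]
    rw [this]
    simp [hc]
  · intro i _ hi
    obtain ⟨k, rfl⟩ := Fin.exists_succ_eq.2 hi
    simp [hc]
  · simp

lemma inv_mulVec (hA : A.PosDef) (d : Co (m + 1)) :
    A⁻¹ *ᵥ d = ((d ⬝ᵥ nrm A) / sig A) • nrm A
      + (Fin.cons 0 ((tb A)⁻¹ *ᵥ Fin.tail d) : Co (m + 1)) := by
  have hs := (sig_pos hA).ne'
  have hu := (Matrix.isUnit_iff_isUnit_det _).1 hA.isUnit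
  set r := (tb A)⁻¹ *ᵥ Fin.tail d
  have e : A *ᵥ (((d ⬝ᵥ nrm A) / sig A) • nrm A + (Fin.cons 0 r : Co (m + 1))) = d := by
    rw [mulVec_add, mulVec_smul, mulVec_nrm hA]
    funext i
    refine Fin.cases ?_ (fun j => ?_) i
    · simp only [Pi.add_apply, Pi.smul_apply, Fin.cons_zero, smul_eq_mul, mulVec_cons_zero hA,
        div_mul_cancel₀ _ hs]
      have hsym : (tb A)⁻¹ᵀ = (tb A)⁻¹ := by
        simpa using (posDef_tb hA).inv.isHermitian.eq
      have e1 : col A ⬝ᵥ r = -(shift A ⬝ᵥ Fin.tail d) := by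
        rw [shift, neg_dotProduct, neg_neg, dotProduct_mulVec, ← mulVec_transpose, hsym]
      rw [e1]
      simp only [nrm, dotProduct, Fin.sum_univ_succ, Fin.cons_zero, Fin.cons_succ, Fin.tail]
      simp only [mul_comm (shift A _)]
      ring
    · rw [Pi.add_apply, mulVec_cons_succ, mulVec_mulVec,
        mul_nonsing_inv _ ((Matrix.isUnit_iff_isUnit_det _).1 (posDef_tb hA).isUnit), one_mulVec]
      simp [Fin.tail]
  calc A⁻¹ *ᵥ d = A⁻¹ *ᵥ (A *ᵥ _) := by rw [e]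
    _ = _ := by rw [mulVec_mulVec, nonsing_inv_mul _ hu, one_mulVec]

lemma dual_sq (hA : A.PosDef) (d : Co (m + 1)) :
    d ⬝ᵥ (A⁻¹ *ᵥ d)
      = (d ⬝ᵥ nrm A) ^ 2 / sig A + Fin.tail d ⬝ᵥ ((tb A)⁻¹ *ᵥ Fin.tail d) := by
  rw [inv_mulVec hA, dotProduct_add, dotProduct_smul, smul_eq_mul]
  congr 1
  · ring
  · simp [dotProduct, Fin.sum_univ_succ, Fin.tail]

lemma le_dual (hA : A.PosDef) (d : Co (m + 1)) {s b : ℝ} (_hb : 0 ≤ b)
    (hsb : s ^ 2 + b ^ 2 ≤ 1) :
    -(s * ((d ⬝ᵥ nrm A) / Real.sqrt (sig A)))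
        + b * Real.sqrt (Fin.tail d ⬝ᵥ ((tb A)⁻¹ *ᵥ Fin.tail d))
      ≤ Real.sqrt (d ⬝ᵥ (A⁻¹ *ᵥ d)) := by
  rw [dual_sq hA]
  set Q := Fin.tail d ⬝ᵥ ((tb A)⁻¹ *ᵥ Fin.tail d)
  have hQ : 0 ≤ Q := by
    simpa using (posDef_tb hA).inv.posSemidef.dotProduct_mulVec_nonneg (Fin.tail d)
  set p := (d ⬝ᵥ nrm A) / Real.sqrt (sig A)
  rw [show (d ⬝ᵥ nrm A) ^ 2 / sig A = p ^ 2 by rw [div_pow, Real.sq_sqrt (sig_pos hA).le]]
  refine Real.le_sqrt_of_sq_le ?_
  nlinarith [Real.sq_sqrt hQ, sq_nonneg (s * Real.sqrt Q + b * p),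
    mul_le_mul_of_nonneg_right hsb (add_nonneg (sq_nonneg p) hQ)]

end Vale.Agent.P219.Solv
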