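import Vale.Agent.P219.Solv.Group

/-!
# P219: the unit normal of the slices of a left-invariant metric and its divergence
-/

namespace Vale.Agent.P219.Solv

open MeasureTheory Set Filter Topology Matrix Metric
open scoped Matrix

variable {m n : ℕ}

lemma contDiff_det {X : Type*} [NormedAddCommGroup X] [NormedSpace ℝ X] {k : ℕ}
    {F : X → Matrix (Fin k) (Fin k) ℝ} (hF : ∀ i j, ContDiff ℝ 1 fun x => F x i j) :
    ContDiff ℝ 1 fun x => (F x).det := by
  simp only [Matrix.det_apply']
  exact ContDiff.sum fun σ _ => contDiff_const.mul (contDiff_prod fun i _ => hF _ _)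

lemma contDiff_adjugate {X : Type*} [NormedAddCommGroup X] [NormedSpace ℝ X] {k : ℕ}
    {F : X → Matrix (Fin k) (Fin k) ℝ} (hF : ∀ i j, ContDiff ℝ 1 fun x => F x i j) (i j : Fin k) :
    ContDiff ℝ 1 fun x => (F x).adjugate i j := by
  simp only [Matrix.adjugate_apply]
  refine contDiff_det fun a b => ?_
  by_cases h : a = j
  · simp only [Matrix.updateRow_apply, h, if_true]; exact contDiff_const
  · simp only [Matrix.updateRow_apply, h, if_false]; exact hF a b

lemma IsMetric.inv_entry {g : Co n → Matrix (Fin n) (Fin n) ℝ} (hg : IsMetric g) (i j : Fin n) :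
    ContDiff ℝ 1 fun x => (g x)⁻¹ i j := by
  simp only [Matrix.inv_def, Ring.inverse_eq_inv, Matrix.smul_apply, smul_eq_mul]
  exact ((contDiff_det hg.2).inv fun x => (hg.1 x).det_pos.ne').mul (contDiff_adjugate hg.2 i j)

lemma IsMetric.contDiff_mdens {g : Co n → Matrix (Fin n) (Fin n) ℝ} (hg : IsMetric g) :
    ContDiff ℝ 1 (mdens g) :=
  (contDiff_det hg.2).sqrt fun x => (hg.1 x).det_pos.ne'

lemma IsMetric.mdens_pos {g : Co n → Matrix (Fin n) (Fin n) ℝ} (hg : IsMetric g) (x : Co n) :
    0 < mdens g x := Real.sqrt_pos.2 (hg.1 x).det_pos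

lemma mnorm_smul (g : Co n → Matrix (Fin n) (Fin n) ℝ) (x : Co n) (D : Co n →L[ℝ] ℝ) {r : ℝ}
    (hr : 0 ≤ r) : mnorm g x (r • D) = r * mnorm g x D := by
  have e : coord (r • D) = r • coord D := funext fun i => by simp [coord]
  simp only [mnorm, e, mulVec_smul, dotProduct_smul, smul_dotProduct, smul_eq_mul, ← mul_assoc]
  rw [Real.sqrt_mul (mul_nonneg hr hr), Real.sqrt_mul_self hr]

lemma IsMetric.continuous_mnorm {g : Co n → Matrix (Fin n) (Fin n) ℝ} (hg : IsMetric g) :
    Continuous fun p : Co n × (Co n →L[ℝ] ℝ) => mnorm g p.1 p.2 := by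
  have h : ∀ i j, Continuous fun x => (g x)⁻¹ i j := fun i j => (hg.inv_entry i j).continuous
  simp only [mnorm, coord, dotProduct, Matrix.mulVec]
  refine Continuous.sqrt (continuous_finsetSum _ fun i _ => ?_)
  exact (continuous_snd.clm_apply continuous_const).mul (continuous_finsetSum _ fun j _ =>
    ((h i j).comp continuous_fst).mul (continuous_snd.clm_apply continuous_const))

section

variable {mul : Co (m + 1) → Co (m + 1) → Co (m + 1)}
  {g : Co (m + 1) → Matrix (Fin (m + 1)) (Fin (m + 1)) ℝ}

lemma isMetric_slice (hg : IsMetric g) (t : ℝ) : IsMetric fun y => tb (g (Fin.cons t y)) :=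
  ⟨fun _ => posDef_tb (hg.1 _), fun i j => (hg.2 i.succ j.succ).comp
    ((consE m).contDiff.comp (contDiff_const.prodMk contDiff_id))⟩

/-- The first coordinate of the unit normal. -/
noncomputable def speed (g : Co (m + 1) → Matrix (Fin (m + 1)) (Fin (m + 1)) ℝ) : ℝ :=
  (Real.sqrt (sig (g 0)))⁻¹

/-- The unit normal of the slices. -/
noncomputable def unitN (g : Co (m + 1) → Matrix (Fin (m + 1)) (Fin (m + 1)) ℝ) (x : Co (m + 1)) :
    Co (m + 1) := speed g • nrm (g x)

lemma contDiff_unitN (hg : IsMetric g) (i : Fin (m + 1)) :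
    ContDiff ℝ 1 fun x => unitN g x i := by
  refine Fin.cases ?_ (fun k => ?_) i
  · simp only [unitN, nrm, Pi.smul_apply, Fin.cons_zero]; exact contDiff_const
  · have h : ∀ a b, ContDiff ℝ 1 fun x => (tb (g x))⁻¹ a b := by
      intro a b
      simp only [Matrix.inv_def, Ring.inverse_eq_inv, Matrix.smul_apply, smul_eq_mul]
      exact ((contDiff_det fun i j => hg.2 i.succ j.succ).inv
        fun x => (posDef_tb (hg.1 x)).det_pos.ne').mul
        (contDiff_adjugate (fun i j => hg.2 i.succ j.succ) a b)
    simp only [unitN, nrm, shift, Pi.smul_apply, Fin.cons_succ, Pi.neg_apply, Matrix.mulVec,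
      dotProduct, smul_eq_mul]
    exact contDiff_const.mul (ContDiff.sum fun b _ => (h k b).mul (hg.2 b.succ 0)).neg

/-- The weighted divergence of the unit normal. -/
noncomputable def dvg (g : Co (m + 1) → Matrix (Fin (m + 1)) (Fin (m + 1)) ℝ) (x : Co (m + 1)) :
    ℝ := (∑ i, fderiv ℝ (fun z => mdens g z * unitN g z i) x (Pi.single i 1)) / mdens g x

lemma contDiff_flux (hg : IsMetric g) (i : Fin (m + 1)) :
    ContDiff ℝ 1 fun z => mdens g z * unitN g z i :=
  hg.contDiff_mdens.mul (contDiff_unitN hg i)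

lemma continuous_dvg (hg : IsMetric g) : Continuous (dvg g) :=
  (continuous_finsetSum _ fun i _ =>
    ((contDiff_flux hg i).continuous_fderiv one_ne_zero).clm_apply continuous_const).div
    hg.contDiff_mdens.continuous fun x => (hg.mdens_pos x).ne'

lemma integral_flux_deriv (hg : IsMetric g) {h : Co (m + 1) → ℝ} (hh : ContDiff ℝ 1 h)
    (hc : HasCompactSupport h) :
    ∫ x, mdens g x * fderiv ℝ h x (unitN g x) = -∫ x, mdens g x * dvg g x * h x := by
  set P := fun (i : Fin (m + 1)) z => mdens g z * unitN g z i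
  have hP : ∀ i, ContDiff ℝ 1 (P i) := fun i => contDiff_flux hg i
  have c1 : ∀ i : Fin (m + 1), Continuous fun x => fderiv ℝ (P i) x (Pi.single i 1) := fun i =>
    ((hP i).continuous_fderiv one_ne_zero).clm_apply continuous_const
  have c2 : ∀ i : Fin (m + 1), Continuous fun x => fderiv ℝ h x (Pi.single i 1) := fun i =>
    (hh.continuous_fderiv one_ne_zero).clm_apply continuous_const
  have s2 : ∀ i : Fin (m + 1), HasCompactSupport fun x => fderiv ℝ h x (Pi.single i 1) :=
    fun i => hc.fderiv_apply ℝ _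
  have i1 : ∀ i, Integrable fun x => P i x * fderiv ℝ h x (Pi.single i 1) := fun i =>
    ((hP i).continuous.mul (c2 i)).integrable_of_hasCompactSupport (s2 i).mul_left
  have i2 : ∀ i, Integrable fun x => fderiv ℝ (P i) x (Pi.single i 1) * h x := fun i =>
    ((c1 i).mul hh.continuous).integrable_of_hasCompactSupport hc.mul_left
  have e1 : ∀ x, mdens g x * fderiv ℝ h x (unitN g x)
      = ∑ i, P i x * fderiv ℝ h x (Pi.single i 1) := fun x => by
    rw [apply_eq_coord, dotProduct, Finset.mul_sum]
    exact Finset.sum_congr rfl fun i _ => by simp only [P, coord]; ring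
  have e2 : ∀ x, mdens g x * dvg g x * h x
      = ∑ i, fderiv ℝ (P i) x (Pi.single i 1) * h x := fun x => by
    rw [← Finset.sum_mul, dvg, mul_div_cancel₀ _ (hg.mdens_pos x).ne']
  simp only [e1, e2]
  rw [integral_finsetSum _ fun i _ => i1 i, integral_finsetSum _ fun i _ => i2 i,
    ← Finset.sum_neg_distrib]
  refine Finset.sum_congr rfl fun i _ => ?_
  exact integral_mul_fderiv_eq_neg_fderiv_mul_of_integrable (i2 i) (i1 i)
    (((hP i).continuous.mul hh.continuous).integrable_of_hasCompactSupport hc.mul_left)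
    (fun x _ => (hP i).differentiable one_ne_zero x) (fun x _ => hh.differentiable one_ne_zero x)

variable (hG : Triangular (m + 1) mul)

include hG

lemma fderiv_zero_coord (a x v : Co (m + 1)) : fderiv ℝ (mul a) x v 0 = v 0 := by
  have h1 := hasFDerivAt_pi'.1 ((hG.smooth a).differentiable one_ne_zero x).hasFDerivAt 0
  simp only [mul_zero_coord hG] at h1
  exact DFunLike.congr_fun (h1.unique ((hasFDerivAt_apply (0 : Fin (m + 1)) x).const_add (a 0))) v

lemma nrm_invariant (hg : IsMetric g) (hi : LeftInvariant mul g) (a x : Co (m + 1)) :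
    fderiv ℝ (mul a) x (nrm (g x)) = nrm (g (mul a x)) := by
  refine nrm_unique (hg.1 _) (by rw [fderiv_zero_coord hG]; simp [nrm]) fun y => ?_
  obtain ⟨b, hab, hba⟩ := hG.inv a
  set v := fderiv ℝ (mul b) (mul a x) (Fin.cons 0 y)
  have hv : fderiv ℝ (mul a) x v = Fin.cons 0 y := by
    have := fderiv_inverse hG hab (mul a x) (Fin.cons 0 y)
    rwa [mul_inverse hG hba x] at this
  have hv0 : v = Fin.cons 0 (Fin.tail v) := by
    have : v 0 = 0 := by
      show fderiv ℝ (mul b) (mul a x) (Fin.cons 0 y) 0 = 0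
      rw [fderiv_zero_coord hG]; simp
    conv_lhs => rw [← Fin.cons_self_tail v, this]
  rw [← hv, hi, hv0, nrm_dot (hg.1 x), zero_mul]

lemma sig_invariant (hg : IsMetric g) (hi : LeftInvariant mul g) (x : Co (m + 1)) :
    sig (g x) = sig (g 0) := by
  rw [← nrm_sq (hg.1 0), ← hi x 0 (nrm (g 0)) (nrm (g 0)), nrm_invariant hG hg hi, hG.mul_one,
    nrm_sq (hg.1 x)]

lemma dvg_invariant (hg : IsMetric g) (hi : LeftInvariant mul g) (x : Co (m + 1)) :
    dvg g x = dvg g 0 := by
  set L := mul x
  set f := fun z => mdens g z * (dvg g z - dvg g (L z))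
  have hf : Continuous f := hg.contDiff_mdens.continuous.mul
    ((continuous_dvg hg).sub ((continuous_dvg hg).comp (hG.smooth x).continuous))
  have hL : ContDiff ℝ 1 L := hG.smooth x
  have key : ∀ k : Co (m + 1) → ℝ, ContDiff ℝ 1 k → HasCompactSupport k →
      ∫ z, f z * k z = 0 := by
    intro k hk hkc
    obtain ⟨b, hab, hba⟩ := hG.inv x
    set h := fun z => k (mul b z)
    have hh : ContDiff ℝ 1 h := hk.comp (hG.smooth b)
    have hhc : HasCompactSupport h := hkc.comp_homeomorph (leftHomeo hG b)
    have hkh : ∀ z, k z = h (L z) := fun z => by simp only [h, L, mul_inverse hG hba]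
    have hD : ∀ z, fderiv ℝ k z (unitN g z) = fderiv ℝ h (L z) (unitN g (L z)) := fun z => by
      have e := ((hh.differentiable one_ne_zero (L z)).hasFDerivAt.comp z
        (hL.differentiable one_ne_zero z).hasFDerivAt)
      rw [show h ∘ L = k from funext fun z => (hkh z).symm] at e
      rw [e.fderiv, ContinuousLinearMap.comp_apply]
      congr 1
      rw [unitN, map_smul, nrm_invariant hG hg hi]
      rfl
    have e1 : ∫ z, mdens g z * fderiv ℝ k z (unitN g z)
        = ∫ z, mdens g z * fderiv ℝ h z (unitN g z) := by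
      rw [← integral_translate hG x fun z => mdens g z * fderiv ℝ h z (unitN g z)]
      congr 1; funext z
      rw [← mul_assoc, mdens_invariant hi, hD z]
    have e2 : ∫ z, mdens g z * dvg g (L z) * k z = ∫ z, mdens g z * dvg g z * h z := by
      rw [← integral_translate hG x fun z => mdens g z * dvg g z * h z]
      congr 1; funext z
      rw [hkh z, ← mdens_invariant hi x z]; ring
    rw [integral_flux_deriv hg hk hkc, integral_flux_deriv hg hh hhc, ← e2, neg_inj] at e1
    have i1 : Integrable fun z => mdens g z * dvg g z * k z :=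
      ((hg.contDiff_mdens.continuous.mul (continuous_dvg hg)).mul
        hk.continuous).integrable_of_hasCompactSupport hkc.mul_left
    have i2 : Integrable fun z => mdens g z * dvg g (L z) * k z :=
      ((hg.contDiff_mdens.continuous.mul ((continuous_dvg hg).comp hL.continuous)).mul
        hk.continuous).integrable_of_hasCompactSupport hkc.mul_left
    simp only [f, mul_sub, sub_mul]
    rw [integral_sub i1 i2, e1, sub_self]
  have h0 := ae_eq_zero_of_integral_contDiff_smul_eq_zero (μ := volume)
    hf.locallyIntegrable fun k hk hkc => by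
      simp only [smul_eq_mul, mul_comm (k _)]
      exact key k (hk.of_le (by exact_mod_cast le_top)) hkc
  have h1 := congrFun ((hf.ae_eq_iff_eq volume continuous_zero).1 h0) 0
  simp only [f, L, Pi.zero_apply, mul_eq_zero, (hg.mdens_pos 0).ne', false_or, sub_eq_zero,
    hG.mul_one] at h1
  exact h1.symm

end

end Vale.Agent.P219.Solv
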