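import Vale.Agent.P219.Solv.Layer
import Vale.Agent.P219.Solv.Defs

/-!
# P219: iterated slicing, the inductive step

`X = ℝ × Y`.  If every slice `{t} × Y` satisfies the sharp inequality and the divergence of the
unit normal field `(c, Z)` is a nondecreasing function `a t`, then `X` satisfies it.
-/

namespace Vale.Agent.P219.Solv

open MeasureTheory Set Filter Topology Metric
open Vale.Agent.P219.Slice

variable {m : ℕ}

/-- The hypotheses of the step. -/
structure StepHyp (m : ℕ) (ρ : ℝ × Co m → ℝ) (N : ℝ × Co m → ((ℝ × Co m) →L[ℝ] ℝ) → ℝ)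
    (N' : ℝ → Co m → (Co m →L[ℝ] ℝ) → ℝ) (c : ℝ) (Z : ℝ × Co m → Co m) (a : ℝ → ℝ) : Prop where
  pos : 0 < m
  cρ : Continuous ρ
  ρpos : ∀ x, 0 < ρ x
  cN : Continuous fun p : (ℝ × Co m) × ((ℝ × Co m) →L[ℝ] ℝ) => N p.1 p.2
  cN' : ∀ t, Continuous fun p : Co m × (Co m →L[ℝ] ℝ) => N' t p.1 p.2
  homog : ∀ x D (r : ℝ), 0 ≤ r → N x (r • D) = r * N x D
  split : ∀ x D (s b : ℝ), 0 ≤ b → s ^ 2 + b ^ 2 ≤ 1 →
    -(s * D (c, Z x)) + b * N' x.1 x.2 (D.comp (ContinuousLinearMap.inr ℝ ℝ (Co m))) ≤ N x D
  nn' : ∀ t y D, 0 ≤ N' t y D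
  cpos : 0 < c
  cZ : Continuous Z
  mono : Monotone a
  ca : Continuous a
  slice : ∀ t, Cap m (fun y => c * ρ (t, y)) (N' t)
  divergence : ∀ h : ℝ × Co m → ℝ, ContDiff ℝ 1 h → HasCompactSupport h → ∀ t,
    HasDerivAt (fun u => ∫ y, ρ (u, y) * h (u, y))
      (((∫ y, ρ (t, y) * fderiv ℝ h (t, y) (c, Z (t, y))) + a t * ∫ y, ρ (t, y) * h (t, y)) / c) t

variable {ρ : ℝ × Co m → ℝ} {N : ℝ × Co m → ((ℝ × Co m) →L[ℝ] ℝ) → ℝ}
  {N' : ℝ → Co m → (Co m →L[ℝ] ℝ) → ℝ} {c : ℝ} {Z : ℝ × Co m → Co m} {a : ℝ → ℝ}

lemma StepHyp.N_nonneg (H : StepHyp m ρ N N' c Z a) (x) (D) : 0 ≤ N x D := by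
  have := H.split x D 0 0 le_rfl (by norm_num)
  simpa using this

/-- Integrals over the fibres of a continuous function supported in `ℝ × P`. -/
lemma continuous_fibre {f : ℝ × Co m → ℝ} (hf : Continuous f) {P : Set (Co m)} (hP : IsCompact P)
    (h0 : ∀ t y, y ∉ P → f (t, y) = 0) : Continuous fun t => ∫ y, f (t, y) :=
  (continuous_parametric_integral_of_continuous (μ := (volume : Measure (Co m)))
    (f := fun t y => f (t, y)) hf hP).congr fun t =>
      setIntegral_eq_integral_of_forall_compl_eq_zero fun y hy => h0 t y hy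

/-- The pointwise arithmetic–geometric mean step. -/
lemma coupled_am_gm (hm : 0 < m) {c V Vε x b tot : ℝ} (hc : 0 < c) (hV : 0 ≤ V) (hVε : V ≤ Vε)
    (hb : 0 < b) (htot : 0 < tot) (_hx : 0 ≤ x)
    (he : x * (kap m ^ m * b ^ m) = kap (m + 1) ^ (m + 1) / tot * Vε) :
    (m + 1) * (kap (m + 1) * (V / tot ^ ((m : ℝ) + 1)⁻¹))
      ≤ c * x * V + m * ((V ^ (m : ℝ)⁻¹) ^ (m - 1) * (kap m * (b / c ^ (m : ℝ)⁻¹))) := by
  have hκ := kap_pos m
  have hκ' := kap_pos (m + 1)
  rcases hV.eq_or_lt with h | hV
  · rw [← h]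
    simp only [zero_div, mul_zero]
    positivity
  set cr := c ^ (m : ℝ)⁻¹
  have hcr : cr ^ m = c := Real.rpow_inv_natCast_pow hc.le hm.ne'
  have hcr0 : 0 < cr := Real.rpow_pos_of_pos hc _
  set den := kap m ^ m * b ^ m
  have hden : 0 < den := by positivity
  set x0 := kap (m + 1) ^ (m + 1) / tot * V / den
  have hx0 : x0 ≤ x := by
    rw [div_le_iff₀ hden, he]
    exact mul_le_mul_of_nonneg_left hVε (by positivity)
  set N : ℝ := (m : ℝ) + 1
  set v := V ^ (m : ℝ)⁻¹
  have hv : 0 < v := Real.rpow_pos_of_pos hV _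
  have hvm : v ^ m = V := Real.rpow_inv_natCast_pow hV.le hm.ne'
  set q := v ^ (m - 1) * (kap m * (b / cr))
  have hq : 0 ≤ q := by positivity
  have h := Real.geom_mean_le_arith_mean2_weighted (w₁ := 1 / N) (w₂ := m / N) (p₁ := c * x0 * V)
    (p₂ := q) (by positivity) (by positivity) (by positivity) hq
    (by rw [← add_div, add_comm, div_self (by positivity)])
  set Y := kap (m + 1) * (V / tot ^ N⁻¹)
  have hY : (c * x0 * V) ^ (1 / N) * q ^ ((m : ℝ) / N) = Y := by
    rw [div_eq_mul_inv, one_mul, div_eq_mul_inv (m : ℝ), Real.rpow_mul hq, Real.rpow_natCast,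
      ← Real.mul_rpow (by positivity) (by positivity),
      ← Real.pow_rpow_inv_natCast (show 0 ≤ Y by positivity) (Nat.succ_ne_zero m)]
    have hNe : ((m.succ : ℕ) : ℝ) = N := by push_cast; rfl
    rw [hNe]
    congr 1
    have ht : (tot ^ N⁻¹) ^ (m + 1) = tot := by
      rw [← hNe]; exact Real.rpow_inv_natCast_pow htot.le (Nat.succ_ne_zero m)
    have e2 : q ^ m = V ^ (m - 1) * (den / c) := by
      simp only [q, den]
      rw [mul_pow, mul_pow, div_pow, hcr, ← pow_mul, mul_comm (m - 1), pow_mul, hvm]
      ring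
    have e3 : V ^ m = V * V ^ (m - 1) := by rw [← pow_succ', Nat.sub_add_cancel hm]
    calc c * x0 * V * q ^ m = x0 * den * (V * V ^ (m - 1)) := by rw [e2]; field_simp
      _ = kap (m + 1) ^ (m + 1) / tot * V * V ^ m := by
        rw [← e3]; simp only [x0, div_mul_cancel₀ _ hden.ne']
      _ = Y ^ (m + 1) := by
        simp only [Y, mul_pow, div_pow, ht]; ring
  rw [hY] at h
  have hN : 0 < N := by positivity
  refine (mul_le_mul_of_nonneg_left h hN.le).trans ?_
  rw [show N * (1 / N * (c * x0 * V) + ↑m / N * q) = c * x0 * V + ↑m * q by field_simp]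
  gcongr

/-- The inequality for one layer. -/
theorem layer_bound (H : StepHyp m ρ N N' c Z a) {φ ψ : ℝ × Co m → ℝ} {η R A₀ : ℝ}
    (hφ : ContDiff ℝ 1 φ) (hφc : HasCompactSupport φ) (hψ : Continuous ψ)
    (hη : 0 < η) (hφ0 : ∀ x, 0 ≤ φ x) (hψ0 : ∀ x, ψ x ∈ Icc (0 : ℝ) 1)
    (hle : ∀ x, η * ψ x ≤ φ x) (hsat : ∀ x, ψ x ≠ 0 → η ≤ φ x) (hR : 0 ≤ R)
    (hsupp : ∀ x : ℝ × Co m, R ≤ |x.1| → φ x = 0)
    (hA : ∀ t ∈ Icc (-(R + 1)) (R + 1), |a t| ≤ A₀) (htot : 0 < ∫ x, ρ x * ψ x) :
    η * ((m + 1) * kap (m + 1) * (∫ x, ρ x * ψ x) ^ ((m : ℝ) / (m + 1)))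
      ≤ (∫ x, ρ x * N x (fderiv ℝ φ x)) + A₀ * ((∫ x, ρ x * φ x) - η * ∫ x, ρ x * ψ x) := by
  have hm := H.pos
  have hc := H.cpos
  have hcr : Continuous fun t => ((c, t) : ℝ × Co m) := by fun_prop
  have hDf := hφ.continuous_fderiv one_ne_zero
  set K := tsupport φ
  have hK : IsCompact K := hφc
  set P := Prod.snd '' K
  have hP : IsCompact P := hK.image continuous_snd
  have hφP : ∀ t y, y ∉ P → φ (t, y) = 0 := fun t y hy => by
    by_contra h
    exact hy ⟨(t, y), subset_tsupport φ h, rfl⟩
  have hDK : ∀ x, x ∉ K → fderiv ℝ φ x = 0 := fun x hx => by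
    by_contra h
    exact hx (support_fderiv_subset ℝ (Function.mem_support.2 h))
  have hDP : ∀ t y, y ∉ P → fderiv ℝ φ (t, y) = 0 := fun t y hy =>
    hDK _ fun h => hy ⟨_, h, rfl⟩
  have hψφ : ∀ x, φ x = 0 → ψ x = 0 := fun x hx => by
    by_contra h
    linarith [hsat x h]
  have hN0 : ∀ x, N x 0 = 0 := fun x => by
    simpa using H.homog x 0 0 le_rfl
  set gN := fun x => ρ x * N x (fderiv ℝ φ x) with hgN
  have hgNc : Continuous gN := H.cρ.mul (H.cN.comp (continuous_id.prodMk hDf))
  have hgNi : Integrable gN := hgNc.integrable_of_hasCompactSupport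
    (HasCompactSupport.intro hK fun x hx => by simp [gN, hDK x hx, hN0])
  have hgN0 : ∀ x, 0 ≤ gN x := fun x => mul_nonneg (H.ρpos x).le (H.N_nonneg _ _)
  set V := fun t => ∫ y, ρ (t, y) * ψ (t, y) with hVd
  set F := fun t => ∫ y, ρ (t, y) * φ (t, y) with hFd
  set Dn := fun t => ∫ y, ρ (t, y) * fderiv ℝ φ (t, y) (c, Z (t, y)) with hDnd
  set G := fun t => ∫ y, gN (t, y) with hGd
  have hVc : Continuous V := continuous_fibre (H.cρ.mul hψ) hP fun t y hy => by
    simp [hψφ _ (hφP t y hy)]
  have hFc : Continuous F := continuous_fibre (H.cρ.mul hφ.continuous) hP fun t y hy => by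
    simp [hφP t y hy]
  have hDc : Continuous Dn := continuous_fibre
    (f := fun x => ρ x * fderiv ℝ φ x (c, Z x))
    (H.cρ.mul (hDf.clm_apply (continuous_const.prodMk H.cZ))) hP fun t y hy => by simp [hDP t y hy]
  have hGc : Continuous G := continuous_fibre hgNc hP fun t y hy => by simp [gN, hDP t y hy, hN0]
  have hG0 : ∀ t, 0 ≤ G t := fun t => integral_nonneg fun y => hgN0 _
  have hfi : ∀ {f : ℝ × Co m → ℝ}, Continuous f → (∀ t y, y ∉ P → f (t, y) = 0) → ∀ t,
      Integrable fun y => f (t, y) := fun {f} hf h0 t =>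
    (hf.comp (Continuous.prodMk_right t)).integrable_of_hasCompactSupport
      (HasCompactSupport.intro hP fun y hy => h0 t y hy)
  have hVF : ∀ t, η * V t ≤ F t := fun t => by
    rw [hVd, hFd, ← integral_const_mul]
    refine integral_mono ((hfi (f := fun x => ρ x * ψ x) (H.cρ.mul hψ) (fun t y hy => by
      simp [hψφ _ (hφP t y hy)]) t).const_mul η) (hfi (f := fun x => ρ x * φ x)
      (H.cρ.mul hφ.continuous) (fun t y hy => by simp [hφP t y hy]) t) fun y => ?_
    show η * (ρ (t, y) * ψ (t, y)) ≤ ρ (t, y) * φ (t, y)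
    rw [mul_left_comm]
    exact mul_le_mul_of_nonneg_left (hle _) (H.ρpos _).le
  have hV0 : ∀ t, 0 ≤ V t := fun t =>
    integral_nonneg fun y => mul_nonneg (H.ρpos _).le (hψ0 _).1
  have hF0 : ∀ t, R ≤ |t| → F t = 0 := fun t ht => by
    simp [F, hsupp (t, _) ht]
  have hVR : ∀ t, R ≤ |t| → V t = 0 := fun t ht => by
    simp [V, hψφ _ (hsupp (t, _) ht)]
  set R' := R + 1
  set B : ℝ → ℝ := fun t => max 0 (R' ^ 2 - t ^ 2)
  have hBc : Continuous B := by fun_prop
  have hB0 : ∀ t, 0 ≤ B t := fun t => le_max_left _ _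
  have hBR : ∀ t, t ∉ Icc (-R') R' → B t = 0 := fun t ht => by
    refine max_eq_left ?_
    rw [mem_Icc, not_and_or, not_le, not_le] at ht
    rcases ht with h | h <;> nlinarith
  have hBpos : ∀ t ∈ Ioo (-R') R', 0 < B t := fun t ht => by
    refine lt_max_of_lt_right ?_
    nlinarith [ht.1, ht.2]
  have hVsupp : ∀ t, t ∉ Icc (-R) R → V t = 0 := fun t ht => hVR t (by
    rw [mem_Icc, not_and_or, not_le, not_le] at ht
    rcases ht with h | h
    · linarith [neg_abs_le t]
    · linarith [le_abs_self t])
  have hVi : Integrable V :=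
    hVc.integrable_of_hasCompactSupport (HasCompactSupport.intro isCompact_Icc hVsupp)
  have hBi : Integrable B :=
    hBc.integrable_of_hasCompactSupport (HasCompactSupport.intro isCompact_Icc hBR)
  have hprod : ∀ {f : ℝ × Co m → ℝ}, Integrable f → ∫ x, f x = ∫ t, ∫ y, f (t, y) := by
    intro f hf
    rw [Measure.volume_eq_prod] at hf ⊢
    exact integral_prod _ hf
  have hψi : Integrable fun x => ρ x * ψ x :=
    (H.cρ.mul hψ).integrable_of_hasCompactSupport (HasCompactSupport.intro hK fun x hx => by
      simp [hψφ x (image_eq_zero_of_notMem_tsupport hx)])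
  have hφi : Integrable fun x => ρ x * φ x :=
    (H.cρ.mul hφ.continuous).integrable_of_hasCompactSupport hφc.mul_left
  set tot := ∫ x, ρ x * ψ x
  have etot : tot = ∫ t, V t := hprod hψi
  have eG : ∫ x, gN x = ∫ t, G t := hprod hgNi
  have eF : ∫ x, ρ x * φ x = ∫ t, F t := hprod hφi
  have hA00 : 0 ≤ A₀ :=
    (abs_nonneg _).trans (hA 0 ⟨by linarith, by linarith⟩)
  set e := ((m : ℝ) + 1)⁻¹
  set BI := ∫ t, B t
  have main : ∀ ε : ℝ, 0 < ε →
      η * ((m + 1) * (kap (m + 1) * (tot / (tot + ε * BI) ^ e))) - η * A₀ * ε * BI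
        ≤ (∫ x, gN x) + A₀ * ((∫ x, ρ x * φ x) - η * tot) := by
    intro ε hε
    set Vε := fun t => V t + ε * B t
    have hVεi : Integrable Vε := hVi.add (hBi.const_mul _)
    have etε : ∫ t, Vε t = tot + ε * BI := by
      rw [integral_add hVi (hBi.const_mul _), integral_const_mul, ← etot]
    have hBI : 0 ≤ BI := integral_nonneg hB0
    have htε : 0 < ∫ t, Vε t := by rw [etε]; positivity
    obtain ⟨T, s, ds, hTm, hTR, hsm, hs, -, hsV, ⟨t₀, ht₀, hst₀⟩, hmemT⟩ :=
      exists_coupling hm (V := Vε) (hVc.add (hBc.const_mul ε))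
        (fun t => add_nonneg (hV0 t) (mul_nonneg hε.le (hB0 t))) (R := R') (by linarith)
        (fun t ht => by
          simp only [Vε]
          rw [hBR t ht, hVsupp t fun h => ht ⟨by linarith [h.1], by linarith [h.2]⟩]; ring) htε
    have hVεpos : ∀ t ∈ Ioo (-R') R', 0 < Vε t := fun t ht =>
      add_pos_of_nonneg_of_pos (hV0 t) (mul_pos hε (hBpos t ht))
    have hVεc : Continuous Vε := hVc.add (hBc.const_mul ε)
    have hTin : Ioo (-R') R' ⊆ T := by
      intro t ht
      have h1 : 0 < ∫ u in (-R')..t, Vε u :=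
        intervalIntegral.intervalIntegral_pos_of_pos_on (hVεc.intervalIntegrable _ _)
          (fun u hu => hVεpos u ⟨hu.1, hu.2.trans ht.2⟩) ht.1
      have h2 : 0 < ∫ u in t..R', Vε u :=
        intervalIntegral.intervalIntegral_pos_of_pos_on (hVεc.intervalIntegrable _ _)
          (fun u hu => hVεpos u ⟨ht.1.trans hu.1, hu.2⟩) ht.2
      have h3 : ∫ u in (-R')..R', Vε u = ∫ u, Vε u := by
        rw [intervalIntegral.integral_of_le (by linarith), ← integral_Icc_eq_integral_Ioc]
        refine setIntegral_eq_integral_of_forall_compl_eq_zero fun u hu => ?_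
        simp only [Vε]
        rw [hBR u hu, hVsupp u fun h => hu ⟨by linarith [h.1], by linarith [h.2]⟩]; ring
      refine hmemT t h1 ?_
      rw [← h3, ← intervalIntegral.integral_add_adjacent_intervals
        (hVεc.intervalIntegrable (-R') t) (hVεc.intervalIntegrable t R')]
      linarith
    set J := Icc (-R) R
    have hJI : J ⊆ Ioo (-R') R' := fun t ht => ⟨by linarith [ht.1], by linarith [ht.2]⟩
    have hJT : J ⊆ T := hJI.trans hTin
    have hsd : ∀ t ∈ J, HasDerivAt s (ds t) t := fun t ht =>
      (hs t (hJT ht)).2.1.hasDerivAt (Filter.mem_of_superset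
        (Ioo_mem_nhds (hJI ht).1 (hJI ht).2) hTin)
    have hsc : ContinuousOn s J := fun t ht => (hsd t ht).continuousAt.continuousWithinAt
    have hcap0 : ∀ t ∈ J, cap m (s t) ≠ 0 := fun t ht => (cap_pos m (hs t (hJT ht)).1).ne'
    have hdsc : ContinuousOn ds J := by
      refine ContinuousOn.congr (f := fun t =>
        kap (m + 1) ^ (m + 1) / (∫ u, Vε u) * Vε t / cap m (s t)) ?_ fun t ht => ?_
      · exact (continuousOn_const.mul hVεc.continuousOn).div
          ((continuous_cap m).comp_continuousOn hsc) hcap0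
      · rw [eq_div_iff (hcap0 t ht)]; exact (hs t (hJT ht)).2.2.2
    set Q := fun t => η * ((m + 1) * (kap (m + 1) * (V t / (∫ u, Vε u) ^ e)))
    have hpt : ∀ t ∈ J, Q t + η * a t₀ * (s t * V t) - A₀ * (F t - η * V t)
        ≤ G t + c * (ds t * F t + s t * ((Dn t + a t * F t) / c)) := by
      intro t ht
      obtain ⟨hst, -, hds, he⟩ := hs t (hJT ht)
      set b := Real.sqrt (1 - s t ^ 2)
      have hb2 : 0 < 1 - s t ^ 2 := by nlinarith [hst.1, hst.2]
      have hb : 0 < b := Real.sqrt_pos.2 hb2
      have hsb : s t ^ 2 + b ^ 2 ≤ 1 := by rw [Real.sq_sqrt hb2.le]; linarith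
      set φt := fun y => φ (t, y)
      have hφtd : ∀ y, fderiv ℝ φt y
          = (fderiv ℝ φ (t, y)).comp (ContinuousLinearMap.inr ℝ ℝ (Co m)) := fun y =>
        (((hφ.differentiable one_ne_zero) (t, y)).hasFDerivAt.comp y
          (hasFDerivAt_prodMk_right t y)).fderiv
      have hφt : ContDiff ℝ 1 φt := hφ.comp (contDiff_const.prodMk contDiff_id)
      have hφtc : HasCompactSupport φt := HasCompactSupport.intro hP fun y hy => hφP t y hy
      set gsl := fun y => ρ (t, y) * N' t y (fderiv ℝ φt y)
      have hgslc : Continuous gsl := (H.cρ.comp (Continuous.prodMk_right t)).mul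
        ((H.cN' t).comp (continuous_id.prodMk (hφt.continuous_fderiv one_ne_zero)))
      have hN'le : ∀ x D, b * N' x.1 x.2 (D.comp (ContinuousLinearMap.inr ℝ ℝ (Co m)))
          ≤ N x D + s t * D (c, Z x) := fun x D => by
        linarith [H.split x D (s t) b hb.le hsb]
      have hright : Integrable fun y => gN (t, y) + s t * (ρ (t, y) * fderiv ℝ φ (t, y) (c, Z (t, y))) :=
        (hfi hgNc (fun t y hy => by simp [gN, hDP t y hy, hN0]) t).add
          ((hfi (f := fun x => ρ x * fderiv ℝ φ x (c, Z x))
            (H.cρ.mul (hDf.clm_apply (continuous_const.prodMk H.cZ)))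
            (fun t y hy => by simp [hDP t y hy]) t).const_mul _)
      set v := V t ^ (m : ℝ)⁻¹
      set q := v ^ (m - 1) * (kap m * (b / c ^ (m : ℝ)⁻¹))
      have hRN : 0 ≤ G t + s t * Dn t := by
        rw [hGd, hDnd, ← integral_const_mul,
          ← integral_add (hfi hgNc (fun t y hy => by simp [gN, hDP t y hy, hN0]) t)
            ((hfi (f := fun x => ρ x * fderiv ℝ φ x (c, Z x))
              (H.cρ.mul (hDf.clm_apply (continuous_const.prodMk H.cZ)))
              (fun t y hy => by simp [hDP t y hy]) t).const_mul _)]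
        refine integral_nonneg fun y => ?_
        have h1 := H.split (t, y) (fderiv ℝ φ (t, y)) (s t) 0 le_rfl (by nlinarith [sq_nonneg b])
        have h2 := mul_le_mul_of_nonneg_left h1 (H.ρpos (t, y)).le
        simp only [zero_mul, add_zero, mul_neg] at h2
        show 0 ≤ ρ (t, y) * N (t, y) _ + _
        linarith
      have hslice : 0 < V t → η * (m * q) ≤ G t + s t * Dn t := by
        intro hVt
        rw [hGd, hDnd, ← integral_const_mul,
          ← integral_add (hfi hgNc (fun t y hy => by simp [gN, hDP t y hy, hN0]) t)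
            ((hfi (f := fun x => ρ x * fderiv ℝ φ x (c, Z x))
              (H.cρ.mul (hDf.clm_apply (continuous_const.prodMk H.cZ)))
              (fun t y hy => by simp [hDP t y hy]) t).const_mul _)]
        set cr := c ^ (m : ℝ)⁻¹
        have hcr : cr ^ m = c := Real.rpow_inv_natCast_pow hc.le hm.ne'
        have hcr0 : 0 < cr := Real.rpow_pos_of_pos hc _
        set S := {y | η ≤ φt y}
        have hSm : MeasurableSet S := (isClosed_le continuous_const hφt.continuous).measurableSet
        have hSsub : c * V t ≤ ∫ y in S, c * ρ (t, y) := by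
          rw [hVd, ← integral_const_mul]
          rw [← setIntegral_eq_integral_of_forall_compl_eq_zero (s := S) (fun y hy => by
            have : ψ (t, y) = 0 := by
              by_contra h; exact hy (hsat _ h)
            simp [this])]
          refine setIntegral_mono_on ?_ ?_ hSm fun y _ => ?_
          · exact ((hfi (f := fun x => ρ x * ψ x) (H.cρ.mul hψ) (fun t y hy => by
              simp [hψφ _ (hφP t y hy)]) t).const_mul c).integrableOn
          · refine ((continuous_const.mul (H.cρ.comp (Continuous.prodMk_right t))).continuousOn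
              |>.integrableOn_compact hP).mono_set fun y hy => ?_
            by_contra h
            have : η ≤ φ (t, y) := hy
            linarith [hφP t y h]
          · exact mul_le_mul_of_nonneg_left
              (mul_le_of_le_one_right (H.ρpos _).le (hψ0 _).2) hc.le
        have hW := H.slice t φt η hφt hφtc (fun y => hφ0 _) hη
          (lt_of_lt_of_le (mul_pos hc hVt) hSsub)
        have hpow : c * (m * q / b) ≤ m * kap m * (∫ y in S, c * ρ (t, y)) ^ ((m - 1 : ℝ) / m) := by
          have hm1 : (1 : ℝ) ≤ m := by exact_mod_cast hm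
          refine le_trans (le_of_eq ?_) (mul_le_mul_of_nonneg_left
            (Real.rpow_le_rpow (by positivity) hSsub (div_nonneg (by linarith) (by positivity)))
            (by have := kap_pos m; positivity))
          have e1 : (c * V t) ^ ((m - 1 : ℝ) / m) = (cr * v) ^ (m - 1) := by
            rw [← Real.mul_rpow hc.le hVt.le, ← Real.rpow_natCast, ← Real.rpow_mul (by positivity),
              Nat.cast_sub hm, Nat.cast_one, inv_mul_eq_div]
          have e2 : c = cr * cr ^ (m - 1) := by rw [← pow_succ', Nat.sub_add_cancel hm, hcr]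
          rw [e1, mul_pow]
          nth_rewrite 1 [e2]
          simp only [q]
          field_simp
          simp only [cr, one_div]; ring
        have h3 : c * (η * (m * q)) ≤ b * (c * ∫ y, gsl y) := by
          have e : ∫ y, c * ρ (t, y) * N' t y (fderiv ℝ φt y) = c * ∫ y, gsl y := by
            rw [← integral_const_mul]; congr 1; funext y; simp only [gsl]; ring
          rw [e] at hW
          have h4 := mul_le_mul_of_nonneg_left hpow hη.le
          have h5 : η * (m * kap m * (∫ y in S, c * ρ (t, y)) ^ ((m - 1 : ℝ) / m))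
              ≤ c * ∫ y, gsl y := by linarith
          have h6 := mul_le_mul_of_nonneg_left (h4.trans h5) hb.le
          refine le_trans (le_of_eq ?_) h6
          field_simp
        have h7 : η * (m * q) ≤ b * ∫ y, gsl y :=
          le_of_mul_le_mul_left (h3.trans (le_of_eq (by ring))) hc
        refine h7.trans ?_
        rw [← integral_const_mul]
        refine integral_mono_of_nonneg (ae_of_all _ fun y => mul_nonneg hb.le
          (mul_nonneg (H.ρpos _).le ?_)) hright (ae_of_all _ fun y => ?_) |>.trans (le_of_eq rfl)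
        · exact H.nn' _ _ _
        · show b * (ρ (t, y) * _) ≤ ρ (t, y) * _ + _
          rw [hφtd y]
          have := mul_le_mul_of_nonneg_left (hN'le (t, y) (fderiv ℝ φ (t, y))) (H.ρpos (t, y)).le
          linarith
      have hgm := coupled_am_gm hm hc (hV0 t)
        (le_add_of_nonneg_right (mul_nonneg hε.le (hB0 t))) hb htε hds he
      have h1 : c * ds t * (η * V t) ≤ c * ds t * F t :=
        mul_le_mul_of_nonneg_left (hVF t) (mul_nonneg hc.le hds)
      have h2 : Q t ≤ c * ds t * (η * V t) + (G t + s t * Dn t) := by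
        rcases (hV0 t).eq_or_lt with hz | hVt
        · simp only [Q, ← hz, zero_div, mul_zero, zero_add]
          exact hRN
        have := mul_le_mul_of_nonneg_left hgm hη.le
        have := hslice hVt
        simp only [Q, q, v] at *
        linarith
      have h3 : s t * a t₀ ≤ s t * a t := by
        rcases le_total t t₀ with h | h
        · exact mul_le_mul_of_nonpos_left (H.mono h) (hst₀ ▸ hsm (hJT ht) ht₀ h)
        · exact mul_le_mul_of_nonneg_left (H.mono h) (hst₀ ▸ hsm ht₀ (hJT ht) h)
      have hF : 0 ≤ F t := le_trans (by have := hV0 t; positivity) (hVF t)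
      have h4 : -(A₀) ≤ s t * a t₀ := by
        have : |s t * a t₀| ≤ A₀ := by
          rw [abs_mul]
          exact (mul_le_of_le_one_left (abs_nonneg _) (abs_le.2 ⟨hst.1.le, hst.2.le⟩)).trans
            (hA t₀ (hTR ht₀))
        exact (abs_le.1 this).1
      have h5 := mul_le_mul_of_nonneg_right h3 hF
      have h6 := mul_le_mul_of_nonneg_right h4 (sub_nonneg.2 (hVF t))
      have h7 : c * (s t * ((Dn t + a t * F t) / c)) = s t * Dn t + s t * a t * F t := by
        field_simp
      rw [mul_add, h7]
      linarith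
    have hsVi : ∀ {f : ℝ → ℝ}, Continuous f → IntervalIntegrable (fun t => s t * f t) volume (-R) R :=
      fun {f} hf => ((hsc.mul hf.continuousOn).mono (by rw [uIcc_of_le (by linarith)])).intervalIntegrable
    have hIVB : |∫ t in (-R)..R, s t * V t| ≤ ε * BI := by
      have hsT : AEStronglyMeasurable s (volume.restrict T) :=
        (ContinuousOn.aestronglyMeasurable
          (fun t ht => (hs t ht).2.1.continuousWithinAt) hTm)
      have hi : ∀ {f : ℝ → ℝ}, Integrable f → IntegrableOn (fun t => s t * f t) T := by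
        intro f hf
        refine Integrable.bdd_mul (c := 1) hf.integrableOn hsT ?_
        filter_upwards [ae_restrict_mem hTm] with t ht
        exact abs_le.2 ⟨(hs t ht).1.1.le, (hs t ht).1.2.le⟩
      have e1 : ∫ t in (-R)..R, s t * V t = ∫ t in T, s t * V t := by
        rw [intervalIntegral.integral_of_le (by linarith), ← integral_Icc_eq_integral_Ioc]
        exact (setIntegral_eq_of_subset_of_forall_sdiff_eq_zero hTm hJT
          fun t ht => by simp [hVsupp t ht.2]).symm
      have e2 : ∫ t in T, s t * V t = -(ε * ∫ t in T, s t * B t) := by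
        have h := hsV
        simp only [Vε, mul_add, mul_left_comm (s _) ε] at h
        rw [integral_add (hi hVi) ((hi hBi).const_mul _), integral_const_mul] at h
        linarith
      rw [e1, e2, abs_neg, abs_mul, abs_of_pos hε]
      refine mul_le_mul_of_nonneg_left ?_ hε.le
      refine (abs_integral_le_integral_abs).trans ?_
      refine le_trans ?_ (setIntegral_le_integral (s := T) hBi (ae_of_all _ hB0))
      refine setIntegral_mono_on (hi hBi).abs hBi.integrableOn hTm fun t ht => ?_
      rw [abs_mul, abs_of_nonneg (hB0 t)]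
      exact mul_le_of_le_one_left (hB0 t) (abs_le.2 ⟨(hs t ht).1.1.le, (hs t ht).1.2.le⟩)
    have hparts : ∫ t in (-R)..R, ds t * F t + s t * ((Dn t + a t * F t) / c) = 0 := by
      rw [intervalIntegral.integral_eq_sub_of_hasDerivAt (f := fun t => s t * F t)]
      · simp [hF0 R (le_abs_self R), hF0 (-R) (by rw [abs_neg]; exact le_abs_self R)]
      · intro t ht
        rw [uIcc_of_le (by linarith)] at ht
        exact (hsd t ht).mul (H.divergence φ hφ hφc t)
      · refine ((hdsc.mul hFc.continuousOn).add (hsc.mul ?_)).mono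
          (by rw [uIcc_of_le (by linarith)]) |>.intervalIntegrable
        exact ((hDc.add (H.ca.mul hFc)).div_const c).continuousOn
    have hU : uIcc (-R) R = J := uIcc_of_le (by linarith)
    have hint := intervalIntegral.integral_mono_on (μ := volume) (by linarith : -R ≤ R)
      (f := fun t => Q t + η * a t₀ * (s t * V t) - A₀ * (F t - η * V t))
      (g := fun t => G t + c * (ds t * F t + s t * ((Dn t + a t * F t) / c))) ?_ ?_ hpt
    rotate_left
    · refine (((Continuous.intervalIntegrable (by fun_prop) _ _).add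
        ((hsVi hVc).const_mul _)).sub (Continuous.intervalIntegrable (by fun_prop) _ _))
    · refine (hGc.intervalIntegrable _ _).add (((hdsc.mul hFc.continuousOn).add (hsc.mul
        ((hDc.add (H.ca.mul hFc)).div_const c).continuousOn)).mono hU.le |>.intervalIntegrable.const_mul c)
    have hGle : ∫ t in (-R)..R, G t ≤ ∫ x, gN x := by
      rw [eG, intervalIntegral.integral_of_le (by linarith)]
      refine setIntegral_le_integral ?_ (ae_of_all _ hG0)
      rw [Measure.volume_eq_prod] at hgNi
      exact hgNi.integral_prod_left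
    have hfull : ∀ {f : ℝ → ℝ}, (∀ t, R ≤ |t| → f t = 0) → ∫ t in (-R)..R, f t = ∫ t, f t := by
      intro f hf
      rw [intervalIntegral.integral_of_le (by linarith), ← integral_Icc_eq_integral_Ioc]
      refine setIntegral_eq_integral_of_forall_compl_eq_zero fun t ht => hf t ?_
      rw [mem_Icc, not_and_or, not_le, not_le] at ht
      rcases ht with h | h
      · linarith [neg_abs_le t]
      · linarith [le_abs_self t]
    have iQ : IntervalIntegrable Q volume (-R) R := Continuous.intervalIntegrable (by fun_prop) _ _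
    have iSV : IntervalIntegrable (fun t => η * a t₀ * (s t * V t)) volume (-R) R :=
      (hsVi hVc).const_mul _
    have iFV : IntervalIntegrable (fun t => A₀ * (F t - η * V t)) volume (-R) R :=
      Continuous.intervalIntegrable (by fun_prop) _ _
    have iP : IntervalIntegrable (fun t => c * (ds t * F t + s t * ((Dn t + a t * F t) / c)))
        volume (-R) R := ((hdsc.mul hFc.continuousOn).add (hsc.mul
          ((hDc.add (H.ca.mul hFc)).div_const c).continuousOn)).mono hU.le
            |>.intervalIntegrable.const_mul c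
    have iF : IntervalIntegrable F volume (-R) R := hFc.intervalIntegrable _ _
    have iV : IntervalIntegrable (fun t => η * V t) volume (-R) R :=
      Continuous.intervalIntegrable (by fun_prop) _ _
    rw [intervalIntegral.integral_sub (iQ.add iSV) iFV, intervalIntegral.integral_add iQ iSV,
      intervalIntegral.integral_add (hGc.intervalIntegrable _ _) iP,
      intervalIntegral.integral_const_mul (η * a t₀), intervalIntegral.integral_const_mul A₀,
      intervalIntegral.integral_sub iF iV, intervalIntegral.integral_const_mul η V,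
      intervalIntegral.integral_const_mul c, hparts, hfull hVR, hfull hF0] at hint
    have eQ : ∫ t in (-R)..R, Q t = η * ((m + 1) * (kap (m + 1) * (tot / (tot + ε * BI) ^ e))) := by
      simp only [Q]
      rw [intervalIntegral.integral_const_mul, intervalIntegral.integral_const_mul,
        intervalIntegral.integral_const_mul, intervalIntegral.integral_div, hfull hVR, etε, ← etot]
    rw [eQ, ← etot, ← eF] at hint
    have h8 : -(η * A₀ * ε * BI) ≤ η * a t₀ * ∫ t in (-R)..R, s t * V t := by
      have h9 : |a t₀ * ∫ t in (-R)..R, s t * V t| ≤ A₀ * (ε * BI) := by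
        rw [abs_mul]; exact mul_le_mul (hA t₀ (hTR ht₀)) hIVB (abs_nonneg _) hA00
      have := mul_le_mul_of_nonneg_left (abs_le.1 h9).1 hη.le
      linarith
    linarith
  have hlim : Tendsto (fun ε : ℝ =>
      η * ((m + 1) * (kap (m + 1) * (tot / (tot + ε * BI) ^ e))) - η * A₀ * ε * BI) (𝓝[>] 0)
      (𝓝 (η * ((m + 1) * (kap (m + 1) * (tot / tot ^ e))) - 0)) := by
    have hc1 : ContinuousAt (fun ε : ℝ =>
        η * ((m + 1) * (kap (m + 1) * (tot / (tot + ε * BI) ^ e))) - η * A₀ * ε * BI) 0 := by
      refine ContinuousAt.sub (continuousAt_const.mul (continuousAt_const.mul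
        (continuousAt_const.mul (continuousAt_const.div ?_ ?_)))) (by fun_prop)
      · exact (continuousAt_const.add (continuousAt_id.mul continuousAt_const)).rpow_const
          (Or.inl (by simpa using htot.ne'))
      · simpa using (Real.rpow_pos_of_pos htot e).ne'
    have := hc1.tendsto
    simp only [zero_mul, add_zero, mul_zero] at this
    exact this.mono_left nhdsWithin_le_nhds
  refine le_trans (le_of_eq ?_) (le_of_tendsto hlim (eventually_nhdsWithin_of_forall main))
  rw [sub_zero, show (m : ℝ) / (m + 1) = 1 - e by simp only [e]; field_simp; ring,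
    Real.rpow_sub htot, Real.rpow_one]
  ring

end Vale.Agent.P219.Solv
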