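import Vale.Agent.P219.Solv.Step

/-!
# P219: iterated slicing, summing the layers
-/

namespace Vale.Agent.P219.Solv

open MeasureTheory Set Filter Topology Metric

variable {X : Type*} [NormedAddCommGroup X] [NormedSpace ℝ X] [MeasureSpace X] [BorelSpace X]
  [IsFiniteMeasureOnCompacts (volume : Measure X)]

/-- The energies of the layers add up to at most the energy. -/
lemma sum_layer_energy {ρ : X → ℝ} {N : X → (X →L[ℝ] ℝ) → ℝ} (cρ : Continuous ρ)
    (ρ0 : ∀ x, 0 ≤ ρ x) (cN : Continuous fun p : X × (X →L[ℝ] ℝ) => N p.1 p.2)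
    (hom : ∀ x D (r : ℝ), 0 ≤ r → N x (r • D) = r * N x D) (hN : ∀ x D, 0 ≤ N x D)
    {h : X → ℝ} (hh : ContDiff ℝ 1 h) (hc : HasCompactSupport h) {η : ℝ} (hη : 0 < η) (M : ℕ) :
    ∑ k ∈ Finset.range M, ∫ x, ρ x * N x (fderiv ℝ (fun y => layer η k (h y)) x)
      ≤ ∫ x, ρ x * N x (fderiv ℝ h x) := by
  have h1 : Continuous fun x => ρ x * N x (fderiv ℝ h x) :=
    cρ.mul (cN.comp (continuous_id.prodMk (hh.continuous_fderiv one_ne_zero)))
  have h0 : ∀ x, x ∉ tsupport h → ρ x * N x (fderiv ℝ h x) = 0 := fun x hx => by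
    have e : fderiv ℝ h x = 0 := by
      by_contra h'
      exact hx (support_fderiv_subset ℝ (Function.mem_support.2 h'))
    rw [e, show N x 0 = 0 by simpa using hom x 0 0 le_rfl, mul_zero]
  have hi : Integrable fun x => ρ x * N x (fderiv ℝ h x) :=
    h1.integrable_of_hasCompactSupport (HasCompactSupport.intro hc h0)
  have hik : ∀ k, Integrable fun x => dlayer η k (h x) * (ρ x * N x (fderiv ℝ h x)) := fun k =>
    (((continuous_dlayer η k).comp hh.continuous).mul h1).integrable_of_hasCompactSupport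
      (HasCompactSupport.intro hc fun x hx => by rw [Pi.mul_apply, h0 x hx, mul_zero])
  have e : ∀ k, ∫ x, ρ x * N x (fderiv ℝ (fun y => layer η k (h y)) x)
      = ∫ x, dlayer η k (h x) * (ρ x * N x (fderiv ℝ h x)) := fun k => by
    congr 1; funext x
    rw [fderiv_layer_comp k hh, hom _ _ _ (dlayer_nonneg hη k _)]; ring
  simp only [e]
  rw [← integral_finsetSum _ fun k _ => hik k]
  refine integral_mono (integrable_finsetSum _ fun k _ => hik k) hi fun x => ?_
  show ∑ k ∈ Finset.range M, dlayer η k (h x) * (ρ x * N x (fderiv ℝ h x)) ≤ _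
  rw [← Finset.sum_mul]
  exact mul_le_of_le_one_left (mul_nonneg (ρ0 x) (hN _ _)) (sum_dlayer_le hη M _)

omit [NormedSpace ℝ X] in
/-- Hölder's inequality on a set. -/
lemma holder_set {ρ : X → ℝ} (cρ : Continuous ρ) (ρ0 : ∀ x, 0 ≤ ρ x) {g : X → ℝ}
    (cg : Continuous g) (hg : ∀ x, 0 ≤ g x) (hgc : HasCompactSupport g) {n : ℝ} (hn : 1 < n)
    {A : Set X} (hA : MeasurableSet A) {K : Set X} (hK : IsCompact K) (hAK : A ⊆ K) :
    ∫ x in A, ρ x * g x
      ≤ (∫ x in A, ρ x) ^ ((n - 1) / n) * (∫ x, ρ x * g x ^ n) ^ n⁻¹ := by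
  have hn0 : 0 < n := by linarith
  set a := (n - 1) / n
  have ha : 0 < a := div_pos (by linarith) hn0
  set μA := ∫ x in A, ρ x
  set I := ∫ x, ρ x * g x ^ n
  have hcn : Continuous fun x => g x ^ n := cg.rpow_const fun _ => Or.inr hn0.le
  have hI : Integrable fun x => ρ x * g x ^ n :=
    (cρ.mul hcn).integrable_of_hasCompactSupport (HasCompactSupport.intro hgc fun x hx => by
      simp [image_eq_zero_of_notMem_tsupport hx, Real.zero_rpow hn0.ne'])
  have hAi : IntegrableOn ρ A := (cρ.continuousOn.integrableOn_compact hK).mono_set hAK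
  have hgi : IntegrableOn (fun x => ρ x * g x) A :=
    ((cρ.mul cg).continuousOn.integrableOn_compact hK).mono_set hAK
  have hμ : 0 ≤ μA := setIntegral_nonneg hA fun x _ => ρ0 x
  have hI0 : 0 ≤ I := integral_nonneg fun x => mul_nonneg (ρ0 x) (Real.rpow_nonneg (hg x) _)
  rcases hμ.eq_or_lt with h | hμ'
  · obtain ⟨C, hC⟩ := cg.bounded_above_of_compact_support hgc
    refine (setIntegral_mono_on hgi (hAi.mul_const C) hA fun x _ =>
      mul_le_mul_of_nonneg_left ((le_abs_self _).trans (hC x)) (ρ0 x)).trans ?_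
    rw [integral_mul_const, show ∫ x in A, ρ x = 0 from h.symm, zero_mul, ← h,
      Real.zero_rpow ha.ne', zero_mul]
  have hb : ∀ u : ℝ, 0 < u → ∀ x, ρ x * g x
      ≤ a * u * ρ x + n⁻¹ * u ^ (1 - n) * (ρ x * g x ^ n) := by
    intro u hu x
    have h := Real.geom_mean_le_arith_mean2_weighted (w₁ := a) (w₂ := n⁻¹) (p₁ := u)
      (p₂ := u ^ (1 - n) * g x ^ n) ha.le (by positivity) hu.le
      (mul_nonneg (Real.rpow_nonneg hu.le _) (Real.rpow_nonneg (hg x) _))
      (by simp only [a]; field_simp; ring)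
    rw [Real.mul_rpow (Real.rpow_nonneg hu.le _) (Real.rpow_nonneg (hg x) _),
      ← Real.rpow_mul hu.le, ← Real.rpow_mul (hg x), mul_inv_cancel₀ hn0.ne', Real.rpow_one,
      ← mul_assoc, ← Real.rpow_add hu,
      show a + (1 - n) * n⁻¹ = 0 by simp only [a]; field_simp; ring, Real.rpow_zero, one_mul] at h
    have := mul_le_mul_of_nonneg_left h (ρ0 x)
    linarith
  rcases hI0.eq_or_lt with h | hI'
  · have h0 : (fun x => ρ x * g x ^ n) =ᵐ[volume] 0 := (integral_eq_zero_iff_of_nonneg
      (fun x => mul_nonneg (ρ0 x) (Real.rpow_nonneg (hg x) _)) hI).1 h.symm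
    rw [setIntegral_eq_zero_of_ae_eq_zero]
    · exact mul_nonneg (Real.rpow_nonneg hμ _) (Real.rpow_nonneg hI0 _)
    · filter_upwards [h0] with x hx _
      rcases mul_eq_zero.1 hx with h | h
      · simp [h]
      · simp [((Real.rpow_eq_zero_iff_of_nonneg (hg x)).1 h).1]
  set u := (I / μA) ^ n⁻¹
  have hu : 0 < u := Real.rpow_pos_of_pos (div_pos hI' hμ') _
  have hint : IntegrableOn (fun x => a * u * ρ x + n⁻¹ * u ^ (1 - n) * (ρ x * g x ^ n)) A :=
    (hAi.const_mul _).add (hI.integrableOn.const_mul _)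
  refine (setIntegral_mono_on hgi hint hA fun x _ => hb u hu x).trans ?_
  rw [integral_add (hAi.const_mul _) (hI.integrableOn.const_mul _), integral_const_mul,
    integral_const_mul]
  have hle : ∫ x in A, ρ x * g x ^ n ≤ I := setIntegral_le_integral hI
    (ae_of_all _ fun x => mul_nonneg (ρ0 x) (Real.rpow_nonneg (hg x) _))
  refine (add_le_add le_rfl (mul_le_mul_of_nonneg_left hle (by positivity))).trans (le_of_eq ?_)
  have e1 : u * μA = μA ^ a * I ^ n⁻¹ := by
    simp only [u, a]
    rw [Real.div_rpow hI0 hμ, sub_div, div_self hn0.ne', one_div, Real.rpow_sub hμ', Real.rpow_one]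
    ring
  have e2 : u ^ (1 - n) * I = u * μA := by
    have : u ^ n = I / μA := by
      simp only [u]
      rw [← Real.rpow_mul (by positivity), inv_mul_cancel₀ hn0.ne', Real.rpow_one]
    rw [Real.rpow_sub hu, Real.rpow_one, this]
    field_simp
  rw [show n⁻¹ * u ^ (1 - n) * I = n⁻¹ * (u * μA) by rw [← e2]; ring, ← e1]
  simp only [a, μA]
  field_simp
  ring

/-- The sharp Sobolev inequality follows from its capacity form. -/
theorem sobolev_of_cap {n : ℕ} (hn : 2 ≤ n) {ρ : X → ℝ} {N : X → (X →L[ℝ] ℝ) → ℝ}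
    (cρ : Continuous ρ) (ρ0 : ∀ x, 0 ≤ ρ x)
    (cN : Continuous fun p : X × (X →L[ℝ] ℝ) => N p.1 p.2)
    (hom : ∀ x D (r : ℝ), 0 ≤ r → N x (r • D) = r * N x D) (hN : ∀ x D, 0 ≤ N x D)
    (hcap : Cap n ρ N) {w : X → ℝ} (hw : ContDiff ℝ 1 w) (hc : HasCompactSupport w)
    (h0 : ∀ x, 0 ≤ w x) :
    n * kap n * (∫ x, ρ x * w x ^ ((n : ℝ) / (n - 1))) ^ ((n - 1 : ℝ) / n)
      ≤ ∫ x, ρ x * N x (fderiv ℝ w x) := by
  have hn1 : (2 : ℝ) ≤ n := by exact_mod_cast hn
  set K := (n : ℝ) * kap n
  have hK : 0 < K := mul_pos (by linarith) (kap_pos n)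
  set p := (n : ℝ) / (n - 1) with hp
  set a := (n - 1 : ℝ) / n with ha
  have hp1 : 0 < p - 1 := by rw [hp, sub_pos, one_lt_div (by linarith)]; linarith
  set g := fun x => w x ^ (p - 1)
  have cg : Continuous g := hw.continuous.rpow_const fun _ => Or.inr hp1.le
  have hg0 : ∀ x, 0 ≤ g x := fun x => Real.rpow_nonneg (h0 x) _
  have hgc : HasCompactSupport g :=
    hc.comp_left (g := fun s : ℝ => s ^ (p - 1)) (Real.zero_rpow hp1.ne')
  have hgn : ∀ x, g x ^ (n : ℝ) = w x ^ p := fun x => by
    simp only [g]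
    have : (n : ℝ) - 1 ≠ 0 := by linarith
    rw [← Real.rpow_mul (h0 x), show (p - 1) * n = p by rw [hp]; field_simp; ring]
  set I := ∫ x, ρ x * w x ^ p
  set G := ∫ x, ρ x * N x (fderiv ℝ w x)
  set W := ∫ x, ρ x * g x
  have hI0 : 0 ≤ I := integral_nonneg fun x => mul_nonneg (ρ0 x) (Real.rpow_nonneg (h0 x) _)
  have hG0 : 0 ≤ G := integral_nonneg fun x => mul_nonneg (ρ0 x) (hN _ _)
  obtain ⟨C, hC⟩ := hw.continuous.bounded_above_of_compact_support hc
  have hρg : Integrable fun x => ρ x * g x :=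
    (cρ.mul cg).integrable_of_hasCompactSupport hgc.mul_left
  have key : ∀ η : ℝ, 0 < η → K * I ≤ G * I ^ (n : ℝ)⁻¹ + K * (3 * η * W) := by
    intro η hη
    set M := ⌈C / η⌉₊
    set A := fun k : ℕ => {x | ((k + 2 : ℕ) : ℝ) * η ≤ w x}
    have hAm : ∀ k, MeasurableSet (A k) := fun k =>
      (isClosed_le continuous_const hw.continuous).measurableSet
    have hAK : ∀ k, A k ⊆ tsupport w := fun k x hx => subset_tsupport w (ne_of_gt
      (lt_of_lt_of_le (mul_pos (by positivity) hη) (show _ ≤ w x from hx)))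
    have hpt : ∀ x, w x ≤ (∑ k ∈ Finset.range M, (A k).indicator (fun _ => η) x) + 3 * η := by
      intro x
      have hj0 : 0 ≤ w x / η := div_nonneg (h0 x) hη.le
      set j := ⌊w x / η⌋₊
      have hj : (j : ℝ) * η ≤ w x := (le_div_iff₀ hη).1 (Nat.floor_le hj0)
      have hj' : w x < (j + 1) * η := (div_lt_iff₀ hη).1 (Nat.lt_floor_add_one _)
      have hjM : j - 1 ≤ M := by
        have h : w x / η ≤ C / η := div_le_div_of_nonneg_right ((le_abs_self _).trans (hC x)) hη.le
        have : (j : ℝ) ≤ M := ((Nat.floor_le hj0).trans h).trans (Nat.le_ceil _)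
        have : j ≤ M := by exact_mod_cast this
        omega
      refine le_trans ?_ (add_le_add (Finset.sum_le_sum_of_subset_of_nonneg
        (Finset.range_subset_range.2 hjM)
        fun k _ _ => indicator_nonneg (fun _ _ => hη.le) x) le_rfl)
      rw [Finset.sum_congr rfl fun k hk => indicator_of_mem (s := A k) ?_ _]
      · rw [Finset.sum_const, Finset.card_range, nsmul_eq_mul]
        have : (j : ℝ) ≤ ((j - 1 : ℕ) : ℝ) + 1 := by exact_mod_cast (by omega : j ≤ j - 1 + 1)
        nlinarith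
      · have hk' := Finset.mem_range.1 hk
        show ((k + 2 : ℕ) : ℝ) * η ≤ w x
        refine le_trans (mul_le_mul_of_nonneg_right ?_ hη.le) hj
        exact_mod_cast (by omega : k + 2 ≤ j)
    have hi : ∀ k, Integrable fun x => (A k).indicator (fun x => η * (ρ x * g x)) x := fun k =>
      (hρg.const_mul η).indicator (hAm k)
    have hI1 : I ≤ ∑ k ∈ Finset.range M, η * (∫ x in A k, ρ x * g x) + 3 * η * W := by
      have e : ∀ x, ρ x * w x ^ p = ρ x * g x * w x := fun x => by
        simp only [g]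
        rcases (h0 x).eq_or_lt with h | h
        · rw [← h, Real.zero_rpow (by linarith : p ≠ 0)]; ring
        · rw [mul_assoc, ← Real.rpow_add_one h.ne', sub_add_cancel]
      simp only [I, e]
      refine le_trans (integral_mono ?_ ((integrable_finsetSum (Finset.range M) fun k _ => hi k).add
        (hρg.const_mul (3 * η))) fun x => ?_) (le_of_eq ?_)
      · exact ((cρ.mul cg).mul hw.continuous).integrable_of_hasCompactSupport hc.mul_left
      · show ρ x * g x * w x
          ≤ (∑ k ∈ Finset.range M, (A k).indicator (fun x => η * (ρ x * g x)) x) + _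
        refine (mul_le_mul_of_nonneg_left (hpt x) (mul_nonneg (ρ0 x) (hg0 x))).trans (le_of_eq ?_)
        beta_reduce
        rw [mul_add, Finset.mul_sum, show 3 * η * (ρ x * g x) = ρ x * g x * (3 * η) by ring]
        congr 1
        refine Finset.sum_congr rfl fun k _ => ?_
        by_cases hx : x ∈ A k <;> simp [hx]; ring
      · rw [Pi.add_def, integral_add (integrable_finsetSum _ fun k _ => hi k) (hρg.const_mul _),
          integral_finsetSum _ fun k _ => hi k, integral_const_mul]
        congr 1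
        refine Finset.sum_congr rfl fun k _ => ?_
        rw [integral_indicator (hAm k), integral_const_mul]
    have hI2 : ∀ k, K * (η * ∫ x in A k, ρ x * g x)
        ≤ (∫ x, ρ x * N x (fderiv ℝ (fun y => layer η k (w y)) x)) * I ^ (n : ℝ)⁻¹ := by
      intro k
      have hH := holder_set cρ ρ0 cg hg0 hgc (n := n) (by linarith) (hAm k) hc (hAK k)
      simp only [hgn] at hH
      have hμ : 0 ≤ ∫ x in A k, ρ x := setIntegral_nonneg (hAm k) fun x _ => ρ0 x
      have hL0 : 0 ≤ ∫ x, ρ x * N x (fderiv ℝ (fun y => layer η k (w y)) x) :=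
        integral_nonneg fun x => mul_nonneg (ρ0 x) (hN _ _)
      refine (mul_le_mul_of_nonneg_left (mul_le_mul_of_nonneg_left hH hη.le) hK.le).trans ?_
      rw [← mul_assoc η, ← mul_assoc K]
      refine mul_le_mul_of_nonneg_right ?_ (Real.rpow_nonneg hI0 _)
      rcases hμ.eq_or_lt with h | h
      · rw [← h, Real.zero_rpow (by rw [div_ne_zero_iff]; constructor <;> linarith)]
        simpa using hL0
      set h' := fun y => layer η k (w y)
      have hsub : A k ⊆ {x | η ≤ h' x} := fun x hx => (layer_eq hη hx).ge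
      have hint : IntegrableOn ρ {x | η ≤ h' x} :=
        (cρ.continuousOn.integrableOn_compact hc).mono_set fun x hx => by
          by_contra hn'
          have hx' : η ≤ layer η k (w x) := hx
          rw [image_eq_zero_of_notMem_tsupport hn', layer_eq_zero hη (by positivity)] at hx'
          linarith
      have hmon : ∫ x in A k, ρ x ≤ ∫ x in {x | η ≤ h' x}, ρ x :=
        setIntegral_mono_set hint (ae_of_all _ ρ0) hsub.eventuallyLE
      have := hcap h' η ((contDiff_layer η k).comp hw) (hasCompactSupport_layer_comp hη k hc)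
        (fun x => layer_nonneg hη k _) hη (h.trans_le hmon)
      refine le_trans ?_ this
      rw [← mul_assoc K η]
      exact mul_le_mul_of_nonneg_left (Real.rpow_le_rpow h.le hmon (by
        exact div_nonneg (by linarith) (by linarith))) (by positivity)
    refine (mul_le_mul_of_nonneg_left hI1 hK.le).trans ?_
    rw [mul_add, Finset.mul_sum]
    refine add_le_add ((Finset.sum_le_sum fun k _ => hI2 k).trans ?_) le_rfl
    rw [← Finset.sum_mul]
    exact mul_le_mul_of_nonneg_right (sum_layer_energy cρ ρ0 cN hom hN hw hc hη M)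
      (Real.rpow_nonneg hI0 _)
  have hlim : K * I ≤ G * I ^ (n : ℝ)⁻¹ := by
    have h : Tendsto (fun η : ℝ => G * I ^ (n : ℝ)⁻¹ + K * (3 * η * W)) (𝓝[>] 0)
        (𝓝 (G * I ^ (n : ℝ)⁻¹ + 0)) := by
      refine (tendsto_const_nhds.add ?_).mono_left nhdsWithin_le_nhds
      exact Continuous.tendsto' (by fun_prop) _ _ (by simp)
    rw [add_zero] at h
    exact ge_of_tendsto h (eventually_nhdsWithin_of_forall key)
  rcases hI0.eq_or_lt with h | h
  · rw [← h, Real.zero_rpow (by rw [ha, div_ne_zero_iff]; constructor <;> linarith), mul_zero]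
    exact hG0
  · rw [show a = 1 - (n : ℝ)⁻¹ by rw [ha]; field_simp, Real.rpow_sub h, Real.rpow_one,
      ← mul_div_assoc, div_le_iff₀ (Real.rpow_pos_of_pos h _)]
    exact hlim

variable {m : ℕ} {ρ : ℝ × Co m → ℝ} {N : ℝ × Co m → ((ℝ × Co m) →L[ℝ] ℝ) → ℝ}
  {N' : ℝ → Co m → (Co m →L[ℝ] ℝ) → ℝ} {c : ℝ} {Z : ℝ × Co m → Co m} {a : ℝ → ℝ}

/-- **The slicing step.** -/
theorem StepHyp.cap (H : StepHyp m ρ N N' c Z a) : Cap (m + 1) ρ N := by
  intro h δ hh hc h0 hδ hpos
  set μA := ∫ x in {x | δ ≤ h x}, ρ x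
  set K := ((m : ℝ) + 1) * kap (m + 1) * μA ^ ((m : ℝ) / (m + 1))
  set G := ∫ x, ρ x * N x (fderiv ℝ h x)
  obtain ⟨R₀, hR₀⟩ := hc.isCompact.isBounded.exists_norm_le
  set R := max R₀ 0 + 1
  have hR : 0 ≤ R := by positivity
  have hsupp : ∀ x : ℝ × Co m, R ≤ |x.1| → h x = 0 := fun x hx =>
    image_eq_zero_of_notMem_tsupport fun hin => by
      have := (norm_fst_le x).trans (hR₀ x hin)
      rw [Real.norm_eq_abs] at this
      linarith [le_max_left R₀ 0]
  obtain ⟨A₀, hA₀⟩ := isCompact_Icc.exists_bound_of_continuousOn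
    (H.ca.continuousOn (s := Icc (-(R + 1)) (R + 1)))
  have hA00 : 0 ≤ A₀ := (norm_nonneg _).trans (hA₀ 0 ⟨by linarith, by linarith⟩)
  have hρs : IntegrableOn ρ (tsupport h) := H.cρ.continuousOn.integrableOn_compact hc
  set W := ∫ x in tsupport h, ρ x
  have hAs : {x | δ ≤ h x} ⊆ tsupport h := fun x hx =>
    subset_tsupport h (ne_of_gt (hδ.trans_le (show δ ≤ h x from hx)))
  have key : ∀ M : ℕ, δ * ((M : ℝ) / (M + 4)) * K ≤ G + A₀ * (2 * (δ / ((M : ℝ) + 4)) * W) := by
    intro M
    set η := δ / ((M : ℝ) + 4)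
    have hη : 0 < η := by positivity
    set φ := fun k x => layer η k (h x)
    set ψ := fun k x => layer η (k + 2) (h x) / η
    have cφ : ∀ k, Continuous (φ k) := fun k => (contDiff_layer η k).continuous.comp hh.continuous
    have hφc : ∀ k, HasCompactSupport (φ k) := fun k => hasCompactSupport_layer_comp hη k hc
    have hφi : ∀ k, Integrable fun x => ρ x * φ k x := fun k =>
      (H.cρ.mul (cφ k)).integrable_of_hasCompactSupport (hφc k).mul_left
    have hψe : ∀ k, η * ∫ x, ρ x * ψ k x = ∫ x, ρ x * φ (k + 2) x := fun k => by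
      rw [← integral_const_mul]; congr 1; funext x; simp only [ψ, φ]; field_simp
    have hk : ∀ k ∈ Finset.range M, η * K
        ≤ (∫ x, ρ x * N x (fderiv ℝ (φ k) x))
          + A₀ * ((∫ x, ρ x * φ k x) - ∫ x, ρ x * φ (k + 2) x) := by
      intro k hk
      have hk' : k + 1 ≤ M := Finset.mem_range.1 hk
      have hψc : Continuous (ψ k) := (cφ (k + 2)).div_const η
      have hψ0 : ∀ x, ψ k x ∈ Icc (0 : ℝ) 1 := fun x =>
        ⟨div_nonneg (layer_nonneg hη _ _) hη.le, (div_le_one hη).2 (layer_le hη _ _)⟩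
      have hψ1 : ∀ x, δ ≤ h x → ψ k x = 1 := fun x hx => by
        simp only [ψ]
        rw [layer_eq hη, div_self hη.ne']
        refine le_trans ?_ hx
        rw [← le_div_iff₀ hη, div_div_cancel₀ hδ.ne']
        push_cast
        have : (k : ℝ) + 1 ≤ M := by exact_mod_cast hk'
        linarith
      have hψi : Integrable fun x => ρ x * ψ k x :=
        (H.cρ.mul hψc).integrable_of_hasCompactSupport (HasCompactSupport.intro hc fun x hx => by
          simp [ψ, image_eq_zero_of_notMem_tsupport hx, layer_eq_zero hη (by positivity :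
            (0 : ℝ) ≤ ((k + 2 : ℕ) : ℝ) * η)])
      have hμ : μA ≤ ∫ x, ρ x * ψ k x := by
        refine le_trans (le_of_eq ?_) (setIntegral_le_integral (s := {x | δ ≤ h x}) hψi
          (ae_of_all _ fun x => mul_nonneg (H.ρpos x).le (hψ0 x).1))
        refine setIntegral_congr_fun (isClosed_le continuous_const hh.continuous).measurableSet
          fun x hx => ?_
        rw [hψ1 x hx, mul_one]
      have := layer_bound H (φ := φ k) (ψ := ψ k) ((contDiff_layer η k).comp hh) (hφc k) hψc hη
        (fun x => layer_nonneg hη k _) hψ0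
        (fun x => by
          rcases eq_or_ne (ψ k x) 0 with e | e
          · rw [e, mul_zero]; exact layer_nonneg hη k _
          · rw [show φ k x = η from layer_of_two_pos hη fun h' => e (by simp [ψ, h'])]
            exact mul_le_of_le_one_right hη.le (hψ0 x).2)
        (fun x hx => (layer_of_two_pos hη fun h' => hx (by simp [ψ, h'])).ge)
        hR (fun x hx => by simp [φ, hsupp x hx, layer_eq_zero hη (by positivity : (0 : ℝ) ≤ k * η)])
        (fun t ht => hA₀ t ht) (hpos.trans_le hμ)
      rw [hψe k] at this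
      refine le_trans (mul_le_mul_of_nonneg_left ?_ hη.le) this
      exact mul_le_mul_of_nonneg_left (Real.rpow_le_rpow hpos.le hμ (by positivity))
        (by have := kap_pos (m + 1); positivity)
    have hs := Finset.sum_le_sum hk
    rw [Finset.sum_const, Finset.card_range, nsmul_eq_mul, Finset.sum_add_distrib,
      ← Finset.mul_sum] at hs
    have h1 : ∑ k ∈ Finset.range M, ∫ x, ρ x * N x (fderiv ℝ (φ k) x) ≤ G :=
      sum_layer_energy H.cρ (fun x => (H.ρpos x).le) H.cN H.homog H.N_nonneg hh hc hη M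
    have h2 : ∑ k ∈ Finset.range M, ((∫ x, ρ x * φ k x) - ∫ x, ρ x * φ (k + 2) x)
        ≤ 2 * η * W := by
      have e : ∀ k, (∫ x, ρ x * φ k x) - ∫ x, ρ x * φ (k + 2) x
          = ∫ x, ρ x * (φ k x - φ (k + 2) x) := fun k => by
        rw [← integral_sub (hφi k) (hφi _)]; congr 1; funext x; ring
      have hi : ∀ k, Integrable fun x => ρ x * (φ k x - φ (k + 2) x) := fun k =>
        ((hφi k).sub (hφi (k + 2))).congr (ae_of_all _ fun x => by
          show ρ x * φ k x - ρ x * φ (k + 2) x = _; ring)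
      simp only [e]
      rw [← integral_finsetSum _ fun k _ => hi k, ← integral_const_mul,
        ← integral_indicator (isClosed_tsupport h).measurableSet]
      refine integral_mono (integrable_finsetSum _ fun k _ => hi k)
        ((integrable_indicator_iff (isClosed_tsupport h).measurableSet).2 (hρs.const_mul _))
        fun x => ?_
      show ∑ k ∈ Finset.range M, ρ x * (φ k x - φ (k + 2) x) ≤ _
      rw [← Finset.mul_sum]
      by_cases hx : x ∈ tsupport h
      · rw [indicator_of_mem hx, mul_comm (2 * η)]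
        exact mul_le_mul_of_nonneg_left (sum_layer_sub_le hη M _) (H.ρpos x).le
      · rw [indicator_of_notMem hx]
        simp [φ, image_eq_zero_of_notMem_tsupport hx,
          fun j : ℕ => layer_eq_zero hη (k := j) (x := 0) (by positivity)]
    have := mul_le_mul_of_nonneg_left h2 hA00
    calc δ * ((M : ℝ) / (M + 4)) * K = M * (η * K) := by simp only [η]; ring
      _ ≤ _ := by linarith
  have l1 : Tendsto (fun M : ℕ => δ * ((M : ℝ) / (M + 4)) * K) atTop (𝓝 (δ * 1 * K)) :=
    (tendsto_const_nhds.mul (tendsto_natCast_div_add_atTop (4 : ℝ))).mul tendsto_const_nhds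
  have l2 : Tendsto (fun M : ℕ => G + A₀ * (2 * (δ / ((M : ℝ) + 4)) * W)) atTop
      (𝓝 (G + A₀ * (2 * 0 * W))) := by
    refine tendsto_const_nhds.add (tendsto_const_nhds.mul ((tendsto_const_nhds.mul ?_).mul
      tendsto_const_nhds))
    exact tendsto_const_nhds.div_atTop (tendsto_atTop_add_const_right _ _ tendsto_natCast_atTop_atTop)
  have := le_of_tendsto_of_tendsto' l1 l2 key
  simp only [mul_zero, zero_mul, add_zero] at this
  refine le_trans (le_of_eq ?_) this
  simp only [K]
  push_cast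
  rw [add_sub_cancel_right]
  ring

end Vale.Agent.P219.Solv
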